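import Vale.Agent.P366.H353.N.Defs

/-! Algebra of the induced metric of a Kerr-Schild slice, all dimensions. -/

open MeasureTheory Metric Filter Topology Set
open scoped ContDiff

noncomputable section
namespace Vale.Agent.P366.H707.N

open Vale.Agent.P366.H353.N (kd)

variable {n : ℕ}

/-- The matrix `1 - g gᵀ + v (g + l) (g + l)ᵀ`. -/
def KM (l g : Fin n → ℝ) (v : ℝ) : Matrix (Fin n) (Fin n) ℝ :=
  Matrix.of fun i j => kd i j - g i * g j + v * (g i + l i) * (g j + l j)

theorem det_alg {l g : Fin n → ℝ} {v : ℝ} (hl : ∑ i, l i ^ 2 = 1) :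
    (KM l g v).det = 1 - ∑ i, g i ^ 2 + v * (1 + ∑ i, l i * g i) ^ 2 := by
  set U : Matrix (Fin n) (Fin 2) ℝ := Matrix.of fun i a => (![fun i => - g i,
    fun i => v * (g i + l i)] : Fin 2 → Fin n → ℝ) a i with hU
  set V : Matrix (Fin 2) (Fin n) ℝ := Matrix.of fun a i => (![g, fun i => g i + l i] :
    Fin 2 → Fin n → ℝ) a i with hV
  have hM : KM l g v = 1 + U * V := by
    ext i j
    rw [Matrix.add_apply, Matrix.mul_apply, Fin.sum_univ_two, Matrix.one_apply]
    simp only [KM, hU, hV, Matrix.of_apply, Matrix.cons_val_zero, Matrix.cons_val_one, kd]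
    ring
  have h2 : V * U = !![- ∑ i, g i ^ 2, v * (∑ i, g i ^ 2 + ∑ i, l i * g i);
      -(∑ i, g i ^ 2 + ∑ i, l i * g i), v * (∑ i, g i ^ 2 + 2 * (∑ i, l i * g i) + 1)] := by
    have a1 : ∑ k, g k * (- g k) = - ∑ i, g i ^ 2 := by
      rw [← Finset.sum_neg_distrib]; exact Finset.sum_congr rfl fun k _ => by ring
    have a2 : ∑ k, g k * (v * (g k + l k)) = v * (∑ i, g i ^ 2 + ∑ i, l i * g i) := by
      rw [← Finset.sum_add_distrib, Finset.mul_sum]
      exact Finset.sum_congr rfl fun k _ => by ring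
    have a3 : ∑ k, (g k + l k) * (- g k) = -(∑ i, g i ^ 2 + ∑ i, l i * g i) := by
      rw [← Finset.sum_add_distrib, ← Finset.sum_neg_distrib]
      exact Finset.sum_congr rfl fun k _ => by ring
    have a4 : ∑ k, (g k + l k) * (v * (g k + l k)) =
        v * (∑ i, g i ^ 2 + 2 * (∑ i, l i * g i) + 1) := by
      rw [← hl, Finset.mul_sum, ← Finset.sum_add_distrib, ← Finset.sum_add_distrib, Finset.mul_sum]
      exact Finset.sum_congr rfl fun k _ => by ring
    ext a b
    rw [Matrix.mul_apply]
    simp only [hU, hV, Matrix.of_apply]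
    fin_cases a <;> fin_cases b
    · exact a1
    · exact a2
    · exact a3
    · exact a4
  rw [hM, Matrix.det_one_add_mul_comm, h2, Matrix.det_fin_two]
  simp only [Matrix.add_apply, Matrix.one_apply, Matrix.of_apply, Matrix.cons_val',
    Matrix.cons_val_zero, Matrix.cons_val_one, Matrix.cons_val_fin_one, Fin.isValue, ↓reduceIte,
    zero_ne_one, one_ne_zero]
  ring

/-- The quadratic form of the cofactor matrix at the conormal. -/
theorem adj_alg {l g : Fin n → ℝ} {v : ℝ} (hl : ∑ i, l i ^ 2 = 1)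
    (h0 : 1 - ∑ i, g i ^ 2 + v * (1 + ∑ i, l i * g i) ^ 2 ≠ 0) :
    ∑ i, ∑ j, (KM l g v).adjugate i j * (g i + l i) * (g j + l j) =
      (1 + ∑ i, l i * g i) ^ 2 := by
  have hdet := det_alg (g := g) (v := v) hl
  set c := 1 - ∑ i, g i ^ 2 with hc
  set S := 1 + ∑ i, l i * g i with hS
  set D := c + v * S ^ 2 with hD
  -- the vector `c l + S g`
  have hz : (KM l g v).mulVec (fun i => c * l i + S * g i) = fun i => D * (g i + l i) := by
    funext i
    simp only [Matrix.mulVec, dotProduct, KM, Matrix.of_apply]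
    have e : ∀ j, (kd i j - g i * g j + v * (g i + l i) * (g j + l j)) * (c * l j + S * g j) =
        kd i j * (c * l j + S * g j) + (c * (l j * g j)) * (- g i + v * (g i + l i)) +
        (S * g j ^ 2) * (- g i + v * (g i + l i)) + (c * l j ^ 2) * (v * (g i + l i)) +
        (S * (l j * g j)) * (v * (g i + l i)) := fun j => by ring
    have hk : ∑ j, kd i j * (c * l j + S * g j) = c * l i + S * g i := by simp [kd]
    have h1 : ∑ i, l i * g i = S - 1 := by rw [hS]; ring
    have h2 : ∑ i, g i ^ 2 = 1 - c := by rw [hc]; ring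
    simp only [e, Finset.sum_add_distrib, ← Finset.sum_mul, ← Finset.mul_sum, hk, hl, h1, h2]
    rw [hD]
    ring
  have h3 : (KM l g v).adjugate.mulVec (fun i => D * (g i + l i)) =
      D • (fun i => c * l i + S * g i) := by
    rw [← hz, Matrix.mulVec_mulVec, Matrix.adjugate_mul, hdet, Matrix.smul_mulVec, Matrix.one_mulVec]
  have h4 : ∀ i, ∑ j, (KM l g v).adjugate i j * (g j + l j) = c * l i + S * g i := by
    intro i
    have h5 := congrFun h3 i
    simp only [Matrix.mulVec, dotProduct, Pi.smul_apply, smul_eq_mul] at h5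
    have e : ∀ j, (KM l g v).adjugate i j * (D * (g j + l j)) =
        D * ((KM l g v).adjugate i j * (g j + l j)) := fun j => by ring
    simp only [e, ← Finset.mul_sum] at h5
    exact mul_left_cancel₀ h0 h5
  have e : ∀ i, ∑ j, (KM l g v).adjugate i j * (g i + l i) * (g j + l j) =
      (g i + l i) * (c * l i + S * g i) := by
    intro i
    rw [← h4 i, Finset.mul_sum]
    exact Finset.sum_congr rfl fun j _ => by ring
  simp only [e]
  have e2 : ∀ i, (g i + l i) * (c * l i + S * g i) = c * (l i * g i) + S * g i ^ 2 +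
      c * l i ^ 2 + S * (l i * g i) := fun i => by ring
  have h1 : ∑ i, l i * g i = S - 1 := by rw [hS]; ring
  have h2 : ∑ i, g i ^ 2 = 1 - c := by rw [hc]; ring
  simp only [e2, Finset.sum_add_distrib, ← Finset.mul_sum, hl, h1, h2]
  ring

end Vale.Agent.P366.H707.N
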