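import Vale.Agent.P366.H707.N.X6
import Vale.Agent.P366.H707.N.Alg
import Vale.Agent.P366.H222.N.X0e

/-! The area of the boundary of a Kerr-Schild exterior. -/

open MeasureTheory Metric Filter Topology Set
open scoped ContDiff ENNReal

noncomputable section
namespace Vale.Agent.P366.KSN

open Vale.Agent.P366 (pd E)
open Vale.Agent.P366.H353.N
open Vale.Agent.P366.Kerr (NullCone IsSlice Region Psi pt sp nul ksG indG indK DECat)
open Vale.Agent.P366.H707 (adjq)
open Vale.Agent.P366.H707.N (Par dW KM adj_alg)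

variable {n : ℕ} {C : NullCone n} {lam f : E n → ℝ} {V : E (n + 1) → ℝ} {D : Stmt.Exterior n} {x y z : E n} {s t : ℝ}

lemma Psi_eq (C : NullCone n) (hz : z ≠ 0) : Vale.Agent.P366.H707.N.Psi C.H z = Psi C.H z := by
  ext i
  rw [Psi_apply C hz]
  rfl

lemma Psi_ray_deriv (C : NullCone n) (hx : ‖x‖ = 1) (hs : 0 < s) :
    fderiv ℝ (Psi C.H) (s • x) x = x := by
  ext i
  rw [fderiv_Psi_Y C hx hs x i, Ws_x C hx i]
  rw [sum_xx hx]; ring

/-- Differentials at a boundary point of functions vanishing on the boundary. -/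
lemma bdr_curve (C : NullCone n) (hx : ‖x‖ = 1) (w : E n) : ∃ κ : ℝ, ∀ G : E n → ℝ,
    DifferentiableAt ℝ G (Y C.H x (C.U x)) →
    (∀ z, z ≠ 0 → ‖z‖ = C.U z → G (Psi C.H z) = 0) →
    fderiv ℝ G (Y C.H x (C.U x)) (fderiv ℝ (Psi C.H) (C.U x • x) w) =
      κ * fderiv ℝ G (Y C.H x (C.U x)) x := by
  have h0 := posU' C hx
  have hx0 := ne_zero_of_one hx
  set u := C.U x with hu
  set z0 : E n := u • x with hz0d
  have hz0 : z0 ≠ 0 := smul_ne_zero h0.ne' hx0
  have hn0 : ‖z0‖ = u := norm_smul_unit hx h0.le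
  have hUz0 : C.U z0 = u := U_smul C hx0 h0
  -- the curve
  have hz : HasDerivAt (fun t : ℝ => z0 + t • w) w 0 := by
    simpa using ((hasDerivAt_id (0:ℝ)).smul_const w).const_add z0
  have ha : ∃ a' : ℝ, HasDerivAt (fun t : ℝ => C.U (z0 + t • w) / ‖z0 + t • w‖) a' 0 := by
    have hz0' : z0 + (0:ℝ) • w ≠ 0 := by simpa using hz0
    have hnd : DifferentiableAt ℝ (fun z : E n => ‖z‖) (z0 + (0:ℝ) • w) :=
      (Sm.norm _ hz0').differentiableAt (by simp)
    have h1 : DifferentiableAt ℝ (fun z : E n => C.U z * (‖z‖)⁻¹) (z0 + (0:ℝ) • w) :=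
      ((smU C).diff hz0').mul (hnd.inv (norm_ne_zero_iff.mpr hz0'))
    exact ⟨_, (h1.hasFDerivAt.comp_hasDerivAt 0 hz).congr_of_eventuallyEq
      (Eventually.of_forall fun t => div_eq_mul_inv _ _)⟩
  obtain ⟨a', ha'⟩ := ha
  refine ⟨-(a' * u), fun G hG hG0 => ?_⟩
  have hσ : HasDerivAt (fun t : ℝ => (C.U (z0 + t • w) / ‖z0 + t • w‖) • (z0 + t • w))
      (w + a' • z0) 0 := by
    have h := ha'.smul hz
    refine h.congr_deriv ?_
    simp only [zero_smul, add_zero, hUz0, hn0, div_self h0.ne', one_smul]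
  have hσ0 : (C.U (z0 + (0:ℝ) • w) / ‖z0 + (0:ℝ) • w‖) • (z0 + (0:ℝ) • w) = z0 := by
    simp only [zero_smul, add_zero, hUz0, hn0, div_self h0.ne', one_smul]
  have hP : HasFDerivAt (Psi C.H) (fderiv ℝ (Psi C.H) z0)
      ((C.U (z0 + (0:ℝ) • w) / ‖z0 + (0:ℝ) • w‖) • (z0 + (0:ℝ) • w)) := by
    rw [hσ0]
    exact ((Psi_contDiffAt C hz0).differentiableAt (by simp)).hasFDerivAt
  have hPσ := hP.comp_hasDerivAt (0:ℝ) hσ
  have hG' : HasFDerivAt G (fderiv ℝ G (Y C.H x u))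
      ((Psi C.H ∘ fun t : ℝ => (C.U (z0 + t • w) / ‖z0 + t • w‖) • (z0 + t • w)) 0) := by
    simp only [Function.comp]
    rw [hσ0, Y_eq C hx h0]
    exact hG.hasFDerivAt
  have hGσ := hG'.comp_hasDerivAt (0:ℝ) hPσ
  have hzero : (G ∘ (Psi C.H ∘ fun t : ℝ => (C.U (z0 + t • w) / ‖z0 + t • w‖) • (z0 + t • w)))
      =ᶠ[𝓝 0] fun _ => (0:ℝ) := by
    have hc : ContinuousAt (fun t : ℝ => z0 + t • w) 0 := hz.continuousAt
    have hne : ∀ᶠ t in 𝓝 (0:ℝ), z0 + t • w ≠ 0 := by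
      refine hc.eventually_ne ?_
      simpa using hz0
    filter_upwards [hne] with t ht
    have hUp := C.pos _ ht
    have hnp : 0 < ‖z0 + t • w‖ := norm_pos_iff.mpr ht
    have hq : 0 < C.U (z0 + t • w) / ‖z0 + t • w‖ := div_pos hUp hnp
    refine hG0 _ (smul_ne_zero hq.ne' ht) ?_
    rw [homU C _ ht _ hq, norm_smul, Real.norm_eq_abs, abs_of_pos hq]
    simp only [zpow_zero, one_mul]
    field_simp
  have h2 := hGσ.unique ((hasDerivAt_const (0:ℝ) (0:ℝ)).congr_of_eventuallyEq hzero)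
  rw [map_add, map_add, hz0d, map_smul, map_smul, map_smul, map_smul,
    Psi_ray_deriv C hx h0] at h2
  simp only [smul_eq_mul] at h2
  linarith

/-- On the boundary the differential of the defining function is proportional to that of
`f + λ`. -/
lemma bdr_grad (hS : IsSlice C lam V f D) (hx : ‖x‖ = 1) (i : Fin n) :
    (1 + dL lam f (Y C.H x (C.U x))) * pd i D.F (Y C.H x (C.U x)) =
      (∑ j, pd j D.F (Y C.H x (C.U x)) * x j) *
        (pd i f (Y C.H x (C.U x)) + pd i lam (Y C.H x (C.U x))) := by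
  set y0 := Y C.H x (C.U x) with hy0
  have h0 := posU' C hx
  have hmem : 0 ≤ D.F y0 := mem_Y hS hx le_rfl
  have hFd : DifferentiableAt ℝ D.F y0 := (D.dom.1.differentiable (by simp)) y0
  have hfd := f_diff hS hmem
  have hld := lam_diff hS hmem
  have hφd : DifferentiableAt ℝ (fun y => f y + lam y) y0 := hfd.add hld
  have hFz : ∀ z, z ≠ 0 → ‖z‖ = C.U z → D.F (Psi C.H z) = 0 := fun z hz hz1 => (hS.bdr z hz hz1).1
  have hφz : ∀ z, z ≠ 0 → ‖z‖ = C.U z → (fun y => f y + lam y) (Psi C.H z) = 0 := by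
    intro z hz hz1
    simp only
    rw [(hS.bdr z hz hz1).2, hS.eqL z hz hz1.ge, hz1]; ring
  have hφx : fderiv ℝ (fun y => f y + lam y) y0 x = 1 + dL lam f y0 := by
    rw [fderiv_fun_add hfd hld, add_apply, fderiv_eq_sum_pd, fderiv_eq_sum_pd,
      dL_Y hS hx le_rfl]
    have h2 : ∑ j, pd j lam y0 * x j = 1 := by
      simp only [pd_lam_Y hS hx le_rfl, hy0]
      exact sum_xx hx
    have h3 : ∀ g : E n → ℝ, ∑ j, x j * pd j g y0 = ∑ j, pd j g y0 * x j := fun g =>
      Finset.sum_congr rfl fun j _ => mul_comm _ _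
    simp only [mul_comm (x _)] at *
    rw [h2]; ring
  have hsurj : Function.Surjective (fderiv ℝ (Psi C.H) (C.U x • x)) := by
    have hinj : Function.Injective ((fderiv ℝ (Psi C.H) (C.U x • x) : E n →L[ℝ] E n) : E n →ₗ[ℝ] E n) := by
      rw [← LinearMap.ker_eq_bot, LinearMap.ker_eq_bot']
      intro v hv
      exact fderiv_Psi_inj C hx le_rfl hv
    exact LinearMap.injective_iff_surjective.mp hinj
  obtain ⟨w, hw⟩ := hsurj (EuclideanSpace.single i 1)
  obtain ⟨κ, hκ⟩ := bdr_curve C hx w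
  have e1 := hκ _ hFd hFz
  have e2 := hκ _ hφd hφz
  rw [hw] at e1 e2
  rw [hφx] at e2
  have e3 : fderiv ℝ (fun y => f y + lam y) y0 (EuclideanSpace.single i 1) =
      pd i f y0 + pd i lam y0 := by
    rw [fderiv_fun_add hfd hld]; rfl
  have e4 : fderiv ℝ D.F y0 (EuclideanSpace.single i 1) = pd i D.F y0 := rfl
  have e5 : fderiv ℝ D.F y0 x = ∑ j, pd j D.F y0 * x j := by
    rw [fderiv_eq_sum_pd]
    exact Finset.sum_congr rfl fun j _ => mul_comm _ _
  rw [e3] at e2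
  rw [e4, e5] at e1
  rw [e1, e2]; ring

lemma bdr_dF_pos (hS : IsSlice C lam V f D) (hx : ‖x‖ = 1) :
    0 < ∑ j, pd j D.F (Y C.H x (C.U x)) * x j := by
  set y0 := Y C.H x (C.U x) with hy0
  have h0 := posU' C hx
  have hmem : 0 ≤ D.F y0 := mem_Y hS hx le_rfl
  have hF0 : D.F y0 = 0 := (f_bdr hS hx).1
  have hFd : DifferentiableAt ℝ D.F y0 := (D.dom.1.differentiable (by simp)) y0
  have hY : HasDerivAt (Y C.H x) x (C.U x) := by
    have h2 : Y C.H x = fun s => Y C.H x 0 + s • x := by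
      funext s
      ext i
      simp [Y_apply]
    rw [h2]
    simpa using ((hasDerivAt_id (C.U x)).smul_const x).const_add (Y C.H x 0)
  have hc := hFd.hasFDerivAt.comp_hasDerivAt (C.U x) hY
  have e5 : fderiv ℝ D.F y0 x = ∑ j, pd j D.F y0 * x j := by
    rw [fderiv_eq_sum_pd]
    exact Finset.sum_congr rfl fun j _ => mul_comm _ _
  rw [e5] at hc
  have hge : 0 ≤ ∑ j, pd j D.F y0 * x j := by
    have h1 := (hasDerivWithinAt_iff_tendsto_slope' (s := Ioi (C.U x)) (by simp)).mp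
      (hc.hasDerivWithinAt (s := Ioi (C.U x)))
    refine ge_of_tendsto h1 ?_
    filter_upwards [self_mem_nhdsWithin] with r hr
    have hr : C.U x < r := hr
    rw [slope_def_field]
    refine div_nonneg ?_ (by linarith)
    simp only [Function.comp]
    rw [← hy0, hF0, sub_zero]
    exact mem_Y hS hx hr.le
  refine lt_of_le_of_ne hge fun hz => ?_
  obtain ⟨i, hi⟩ := D.dom.2.1 y0 hF0
  apply hi
  rw [Vale.Agent.P366.Bridge.pd_eq hFd i]
  have h2 := bdr_grad hS hx i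
  rw [← hy0, ← hz, zero_mul] at h2
  exact (mul_eq_zero.mp h2).resolve_left (dL_pos hS hmem).ne'

/-- The area of the boundary. -/
theorem area_le [Fact (3 ≤ n)] (hS : IsSlice C lam V f D)
    (_hV : ∀ p ∈ Region lam f D, ContDiffAt ℝ ∞ V p) :
    D.Amin ≤ ENNReal.ofReal (SI (fun x => dts C.H (C.U x) x)) := by
  have hdt : ∀ x : E n, ‖x‖ = 1 → 0 ≤ dW C.H (C.U x) x := fun x hx => (dts_pos C hx le_rfl).le
  have hS2 : SI (fun x => dts C.H (C.U x) x) = SI fun x => dW C.H (C.U x) x := rfl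
  rw [hS2]
  refine le_trans (sInf_le ⟨D.F, D.dom, fun x hx => hx, rfl⟩) ?_
  refine Vale.Agent.P366.H707.N.area_le D (smH C) (homH C) (smU C) (homU C)
    (fun x hx => posU' C hx) hdt ?_ ?_ ?_ ?_ ?_
  · intro a ha b hb hab
    rw [Psi_eq C ha.1, Psi_eq C hb.1] at hab
    exact C.inj ha hb hab
  · intro y hy
    obtain ⟨x, hx0, hx1, rfl⟩ := (hS.dom y).mp hy
    exact ⟨x, ⟨hx0, hx1⟩, Psi_eq C hx0⟩
  · intro x hx
    rw [Psi_eq C hx.1]
    exact Psi_mem hS hx.1 hx.2
  · intro z hz hF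
    rw [Psi_eq C hz.1] at hF
    obtain ⟨x, hx, hzx⟩ := exists_unit hz.1
    have hn : 0 < ‖z‖ := norm_pos_iff.mpr hz.1
    have hUz : C.U z = C.U x := by rw [hzx, U_smul C (ne_zero_of_one hx) hn]
    by_contra hne
    have hlt : C.U x < ‖z‖ := by rw [← hUz]; exact lt_of_le_of_ne hz.2 hne
    have := F_pos hS hx hlt
    rw [← Y_eq C hx hn, ← hzx] at this
    exact this.ne' hF
  · intro z hz0 hUz
    obtain ⟨x, hx, hzx⟩ := exists_unit hz0
    have hn : 0 < ‖z‖ := norm_pos_iff.mpr hz0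
    have hUx : C.U x = ‖z‖ := by rw [← hUz, hzx, U_smul C (ne_zero_of_one hx) hn]
    have hY : Vale.Agent.P366.H707.N.Psi C.H z = Y C.H x (C.U x) := by
      rw [Psi_eq C hz0, hUx, ← Y_eq C hx hn, ← hzx]
    rw [hY]
    have hzi : ∀ i, z i / ‖z‖ = x i := by
      intro i
      have : z i = ‖z‖ * x i := by
        conv_lhs => rw [hzx]
        simp
      rw [this]; field_simp
    simp only [hzi]
    set y0 := Y C.H x (C.U x) with hy0
    have hFd : DifferentiableAt ℝ D.F y0 := (D.dom.1.differentiable (by simp)) y0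
    have hpe : ∀ i, Stmt.pd i D.F y0 = pd i D.F y0 := Vale.Agent.P366.Bridge.pd_eq hFd
    simp only [hpe]
    refine ⟨bdr_dF_pos hS hx, le_of_eq ?_⟩
    have hmem : 0 ≤ D.F y0 := mem_Y hS hx le_rfl
    have hSp := dL_pos hS hmem
    unfold Vale.Agent.P366.H707.adjq
    simp only [hpe]
    have h2 : Stmt.mat D.g y0 = KM (fun i => pd i lam y0) (fun i => pd i f y0)
        (V (pt (f y0) y0)) := by
      ext i j
      rw [KM, Matrix.of_apply, ← indG_eq (lam_diff hS hmem) (f_diff hS hmem),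
        ← hS.met y0 hmem i j]
      rfl
    rw [h2]
    set a := ∑ j, pd j D.F y0 * x j with ha
    have hgr : ∀ i, pd i D.F y0 = a / (1 + dL lam f y0) * (pd i f y0 + pd i lam y0) := by
      intro i
      have h := bdr_grad hS hx i
      rw [← hy0, ← ha] at h
      rw [div_mul_eq_mul_div, eq_div_iff hSp.ne']
      linarith
    have h3 := adj_alg (g := fun i => pd i f y0) (v := V (pt (f y0) y0)) (gsq_lam' hS hmem)
      (det_indG_pos hS hmem).ne'
    have h4 : (1 + ∑ i, pd i lam y0 * pd i f y0) = 1 + dL lam f y0 := rfl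
    rw [h4] at h3
    set A := (KM (fun i => pd i lam y0) (fun i => pd i f y0) (V (pt (f y0) y0))).adjugate with hA
    have h5 : ∑ i, ∑ j, A i j * pd i D.F y0 * pd j D.F y0 = (a / (1 + dL lam f y0)) ^ 2 *
        ∑ i, ∑ j, A i j * (pd i f y0 + pd i lam y0) * (pd j f y0 + pd j lam y0) := by
      rw [Finset.mul_sum]
      refine Finset.sum_congr rfl fun i _ => ?_
      rw [Finset.mul_sum]
      refine Finset.sum_congr rfl fun j _ => ?_
      rw [hgr i, hgr j]; ring
    rw [h5, h3]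
    field_simp

end Vale.Agent.P366.KSN
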