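import Vale.Agent.P366.H353.N.Basic
import Mathlib.Analysis.Calculus.DerivativeTest

/-! Contact points of the cost `-2 ‖x + y‖`, all dimensions. -/

open MeasureTheory Metric Filter Topology Set
open scoped ContDiff RealInnerProductSpace

noncomputable section
namespace Vale.Agent.P366.H707.N

open Vale.Agent.P366 (sphI sphM pd E)
open Vale.Agent.P366.H353.N

variable {n : ℕ}

/-- derivative along a curve -/
lemma hasDeriv_curve {f : E n → ℝ} (hf : Sm f) {c : ℝ → E n} {c' : E n} {t : ℝ}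
    (hc : HasDerivAt c c' t) (h0 : c t ≠ 0) :
    HasDerivAt (fun s => f (c s)) (∑ i, c' i * pd i f (c t)) t := by
  have := (hf.diff h0).hasFDerivAt.comp_hasDerivAt t hc
  rwa [fderiv_eq_sum_pd] at this

lemma ne0 {x : E n} (hx : ‖x‖ = 1) : x ≠ 0 := by
  rintro rfl; simp at hx

lemma sum_sq {x : E n} (hx : ‖x‖ = 1) : ∑ i, x i ^ 2 = 1 := by
  have h := EuclideanSpace.real_norm_sq_eq x
  rw [hx] at h; linarith

lemma xg {q : E n → ℝ} (hq : Q q) {x : E n} (hx : x ≠ 0) : ∑ i, x i * pd i q x = 0 := by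
  rw [Hom.euler hq.sm hq.hom hx]; simp

lemma Nx {q : E n → ℝ} (hq : Q q) {x : E n} (hx : x ≠ 0) (j : Fin n) :
    ∑ i, x i * hs q i j x = - pd j q x := by
  have h := Hom.euler (hq.sm.pd j) (Hom.pd hq.sm hq.hom j) hx
  simpa [hs] using h

lemma Nx' {q : E n → ℝ} (hq : Q q) {x : E n} (hx : x ≠ 0) (i : Fin n) :
    ∑ j, hs q i j x * x j = - pd i q x := by
  rw [← Nx hq hx i]
  refine Finset.sum_congr rfl fun j _ => ?_
  rw [hs_symm hq.sm hx i j]; ring

lemma sum_rank1 (a b v w : Fin n → ℝ) :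
    ∑ i, ∑ j, a i * b j * v i * w j = (∑ i, a i * v i) * ∑ j, b j * w j := by
  rw [Finset.sum_mul_sum]
  exact Finset.sum_congr rfl fun i _ => Finset.sum_congr rfl fun j _ => by ring

lemma sum_kd (v w : Fin n → ℝ) : ∑ i, ∑ j, kd i j * v i * w j = ∑ i, v i * w i := by
  refine Finset.sum_congr rfl fun i _ => ?_
  unfold kd
  simp

/-- the quadratic form of `Bq` -/
lemma qf_Bq (q : E n → ℝ) (x : E n) (v : Fin n → ℝ) :
    qf (Bq q x) v v = (∑ i, ∑ j, hs q i j x * v i * v j) +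
      2 * (∑ i, pd i q x * v i) * (∑ i, x i * v i) +
      (2 * cc q x ^ 2 - 1) / cc q x * (∑ i, v i * v i - (∑ i, x i * v i) ^ 2) +
      (∑ i, pd i q x * v i) ^ 2 / (4 * cc q x) := by
  have h1 : ∀ i j, Bq q x i j * v i * v j = hs q i j x * v i * v j +
      (fun i => pd i q x) i * x j * v i * v j + x i * (fun j => pd j q x) j * v i * v j +
      (2 * cc q x ^ 2 - 1) / cc q x * (kd i j * v i * v j) -
      (2 * cc q x ^ 2 - 1) / cc q x * (x i * x j * v i * v j) +
      1 / (4 * cc q x) * ((fun i => pd i q x) i * (fun j => pd j q x) j * v i * v j) := by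
    intro i j
    unfold Bq Zb pr
    ring
  unfold qf
  simp only [h1, Finset.sum_add_distrib, Finset.sum_sub_distrib, ← Finset.mul_sum]
  rw [sum_rank1, sum_rank1, sum_rank1, sum_rank1, sum_kd]
  ring

/-- necessary conditions of second order at a minimum -/
lemma second_order {φ φ' : ℝ → ℝ} {c : ℝ} (h1 : ∀ᶠ t in 𝓝 0, HasDerivAt φ (φ' t) t)
    (h2 : HasDerivAt φ' c 0) (hmin : IsLocalMin φ 0) : φ' 0 = 0 ∧ 0 ≤ c := by
  have h10 : HasDerivAt φ (φ' 0) 0 := h1.self_of_nhds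
  have e0 : φ' 0 = 0 := hmin.hasDerivAt_eq_zero h10
  refine ⟨e0, ?_⟩
  by_contra hc
  push Not at hc
  have hde : deriv φ =ᶠ[𝓝 0] φ' := h1.mono fun t ht => ht.deriv
  have hdd : deriv (deriv φ) 0 = c := by rw [hde.deriv_eq]; exact h2.deriv
  have hmax : IsLocalMax φ 0 := isLocalMax_of_deriv_deriv_neg (by rw [hdd]; exact hc)
    (by rw [h10.deriv, e0]) h10.continuousAt
  have hconst : φ =ᶠ[𝓝 0] fun _ => φ 0 := by
    filter_upwards [hmin, hmax] with t a b
    exact le_antisymm b a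
  have h3 : deriv φ =ᶠ[𝓝 0] fun _ => 0 := by
    have := hconst.deriv
    simpa using this
  have h4 : deriv (deriv φ) 0 = 0 := by rw [h3.deriv_eq]; simp
  rw [hdd] at h4
  linarith

/-- the great circle through `x` in the direction `v` -/
def gc (x v : E n) (t : ℝ) : E n := Real.cos t • x + Real.sin t • v

lemma gc_zero (x v : E n) : gc x v 0 = x := by simp [gc]

lemma gc_deriv (x v : E n) (t : ℝ) :
    HasDerivAt (gc x v) (-Real.sin t • x + Real.cos t • v) t :=
  ((Real.hasDerivAt_cos t).smul_const x).add ((Real.hasDerivAt_sin t).smul_const v)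

lemma gc_norm {x v : E n} (hx : ‖x‖ = 1) (hv : ‖v‖ = 1) (hxv : ⟪x, v⟫ = 0) (t : ℝ) :
    ‖gc x v t‖ = 1 := by
  have h : ‖gc x v t‖ ^ 2 = 1 := by
    unfold gc
    rw [norm_add_sq_real, norm_smul, norm_smul, inner_smul_left, inner_smul_right, hxv, hx, hv]
    simp
  have h2 : (‖gc x v t‖ - 1) * (‖gc x v t‖ + 1) = 0 := by ring_nf; linarith
  rcases mul_eq_zero.mp h2 with h3 | h3
  · linarith
  · have := norm_nonneg (gc x v t); linarith

/-- first derivative of `q` along a great circle -/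
lemma q_gc {q : E n → ℝ} (hq : Sm q) {x v : E n} (hx : ‖x‖ = 1) (hv : ‖v‖ = 1)
    (hxv : ⟪x, v⟫ = 0) (t : ℝ) : HasDerivAt (fun s => q (gc x v s))
      (∑ i, (-Real.sin t * x i + Real.cos t * v i) * pd i q (gc x v t)) t := by
  have := hasDeriv_curve hq (gc_deriv x v t) (ne0 (gc_norm hx hv hxv t))
  simpa using this

/-- second derivative of `q` along a great circle -/
lemma q_gc2 {q : E n → ℝ} (hq : Q q) {x v : E n} (hx : ‖x‖ = 1) (hv : ‖v‖ = 1)
    (hxv : ⟪x, v⟫ = 0) :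
    HasDerivAt (fun t => ∑ i, (-Real.sin t * x i + Real.cos t * v i) * pd i q (gc x v t))
      (∑ i, ∑ j, hs q i j x * v i * v j) 0 := by
  have h1 : ∀ j : Fin n, HasDerivAt (fun t => (-Real.sin t * x j + Real.cos t * v j) *
      pd j q (gc x v t)) (- x j * pd j q x + v j * ∑ i, v i * hs q i j x) 0 := by
    intro j
    have ha : HasDerivAt (fun t => -Real.sin t * x j + Real.cos t * v j)
        (-Real.cos 0 * x j + -Real.sin 0 * v j) 0 :=
      ((Real.hasDerivAt_sin 0).neg.mul_const (x j)).add ((Real.hasDerivAt_cos 0).mul_const (v j))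
    have hb := q_gc (hq.sm.pd j) hx hv hxv 0
    have hc := ha.mul hb
    refine hc.congr_deriv ?_
    simp [gc_zero, hs]
  have h2 := HasDerivAt.fun_sum (u := Finset.univ) fun j _ => h1 j
  refine h2.congr_deriv ?_
  have e := xg hq (ne0 hx)
  rw [Finset.sum_add_distrib]
  have e1 : ∑ j, -x j * pd j q x = 0 := by
    rw [← neg_eq_zero, ← Finset.sum_neg_distrib, ← e]
    exact Finset.sum_congr rfl fun i _ => by ring
  rw [e1, zero_add, Finset.sum_comm]
  refine Finset.sum_congr rfl fun j _ => ?_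
  rw [Finset.mul_sum]
  exact Finset.sum_congr rfl fun i _ => by ring

/-- the cost along a great circle -/
lemma cost_gc {x v y : E n} (hx : ‖x‖ = 1) (hy : ‖y‖ = 1) (hv : ‖v‖ = 1) (hxv : ⟪x, v⟫ = 0)
    (t : ℝ) : ‖gc x v t + y‖ = √(2 + 2 * (⟪x, y⟫ * Real.cos t + ⟪v, y⟫ * Real.sin t)) := by
  have h : ‖gc x v t + y‖ ^ 2 = 2 + 2 * (⟪x, y⟫ * Real.cos t + ⟪v, y⟫ * Real.sin t) := by
    rw [norm_add_sq_real, gc_norm hx hv hxv, hy]
    unfold gc
    rw [inner_add_left, real_inner_smul_left, real_inner_smul_left]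
    ring
  rw [← h, Real.sqrt_sq (norm_nonneg _)]

/-- first and second order conditions at a contact point -/
lemma cond {q : E n → ℝ} (hq : Q q) {x y : E n} (hx : ‖x‖ = 1) (hy : ‖y‖ = 1)
    (hmin : ∀ z : E n, ‖z‖ = 1 → q x - 2 * ‖x + y‖ ≤ q z - 2 * ‖z + y‖)
    {C : ℝ} (hC : 0 < C) (hxy : ‖x + y‖ = 2 * C) {v : E n} (hv : ‖v‖ = 1) (hxv : ⟪x, v⟫ = 0) :
    ∑ i, v i * pd i q x = ⟪v, y⟫ / C ∧
      0 ≤ (∑ i, ∑ j, hs q i j x * v i * v j) + ⟪x, y⟫ / C + ⟪v, y⟫ ^ 2 / (4 * C ^ 3) := by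
  set a := ⟪x, y⟫ with ha
  set β := ⟪v, y⟫ with hβ
  have hsq : 2 + 2 * a = (2 * C) ^ 2 := by
    rw [← hxy, norm_add_sq_real, hx, hy]; ring
  set s : ℝ → ℝ := fun t => 2 + 2 * (a * Real.cos t + β * Real.sin t) with hs_def
  have s0 : s 0 = (2 * C) ^ 2 := by rw [← hsq]; simp [hs_def]
  have sq0 : √(s 0) = 2 * C := by rw [s0, Real.sqrt_sq (by positivity)]
  have hs' : ∀ t, HasDerivAt s (2 * (-a * Real.sin t + β * Real.cos t)) t := by
    intro t
    have h := (((Real.hasDerivAt_cos t).const_mul a).add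
      ((Real.hasDerivAt_sin t).const_mul β)).const_mul 2 |>.const_add 2
    refine h.congr_deriv ?_
    ring
  have hs'' : HasDerivAt (fun t => 2 * (-a * Real.sin t + β * Real.cos t)) (-2 * a) 0 := by
    have h := (((Real.hasDerivAt_sin 0).const_mul (-a)).add
      ((Real.hasDerivAt_cos 0).const_mul β)).const_mul 2
    refine h.congr_deriv ?_
    simp
  set g1 : ℝ → ℝ := fun t => ∑ i, (-Real.sin t * x i + Real.cos t * v i) * pd i q (gc x v t)
    with hg1
  set φ : ℝ → ℝ := fun t => q (gc x v t) - 2 * √(s t) with hφ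
  set φ' : ℝ → ℝ := fun t => g1 t - 2 * (2 * (-a * Real.sin t + β * Real.cos t) / (2 * √(s t)))
    with hφ'
  have hpos : ∀ᶠ t in 𝓝 (0:ℝ), 0 < s t := by
    have hc : ContinuousAt s 0 := (hs' 0).continuousAt
    exact hc.eventually (lt_mem_nhds (by rw [s0]; positivity))
  have h1 : ∀ᶠ t in 𝓝 0, HasDerivAt φ (φ' t) t := by
    filter_upwards [hpos] with t ht
    exact (q_gc hq.sm hx hv hxv t).sub (((hs' t).sqrt ht.ne').const_mul 2)
  have hr : HasDerivAt (fun t => √(s t)) (2 * (-a * Real.sin 0 + β * Real.cos 0) / (2 * √(s 0))) 0 :=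
    (hs' 0).sqrt (by rw [s0]; positivity)
  have h2 : HasDerivAt φ' ((∑ i, ∑ j, hs q i j x * v i * v j) + a / C + β ^ 2 / (4 * C ^ 3)) 0 := by
    have h3 := (q_gc2 hq hx hv hxv).sub ((hs''.div (hr.const_mul 2)
      (by rw [sq0]; positivity)).const_mul 2)
    refine h3.congr_deriv ?_
    rw [sq0]
    simp only [Real.sin_zero, Real.cos_zero]
    field_simp
    ring
  have hloc : IsLocalMin φ 0 := by
    refine Filter.Eventually.of_forall fun t => ?_
    have h4 := hmin (gc x v t) (gc_norm hx hv hxv t)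
    rw [cost_gc hx hy hv hxv t] at h4
    have h5 : ‖x + y‖ = √(s 0) := by rw [sq0, hxy]
    rw [h5] at h4
    simp only [hφ, gc_zero]
    exact h4
  obtain ⟨h6, h7⟩ := second_order h1 h2 hloc
  refine ⟨?_, h7⟩
  simp only [hφ', hg1, gc_zero, Real.sin_zero, Real.cos_zero, sq0] at h6
  simp only [neg_zero, zero_mul, mul_zero, zero_add, one_mul, mul_one] at h6
  rw [sub_eq_zero] at h6
  rw [h6]
  field_simp

lemma exists_perp [hn3 : Fact (3 ≤ n)] {x : E n} (hx : ‖x‖ = 1) : ∃ v : E n, ‖v‖ = 1 ∧ ⟪x, v⟫ = 0 := by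
  have h3 := hn3.out
  have hf : Module.finrank ℝ (ℝ ∙ x)ᗮ = n - 1 := by
    have : Fact (Module.finrank ℝ (E n) = (n - 1) + 1) := ⟨by
      simp only [finrank_euclideanSpace, Fintype.card_fin]; omega⟩
    exact Submodule.finrank_orthogonal_span_singleton (ne0 hx)
  have : Nontrivial (ℝ ∙ x)ᗮ := Module.nontrivial_of_finrank_pos (R := ℝ) (by rw [hf]; omega)
  obtain ⟨v, hv⟩ := exists_ne (0 : (ℝ ∙ x)ᗮ)
  have hv0 : (v : E n) ≠ 0 := by simpa using hv
  have hn : ‖(v : E n)‖ ≠ 0 := norm_ne_zero_iff.mpr hv0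
  refine ⟨(‖(v : E n)‖)⁻¹ • (v : E n), ?_, ?_⟩
  · rw [norm_smul, norm_inv, norm_norm, inv_mul_cancel₀ hn]
  · rw [inner_smul_right]
    have := Submodule.mem_orthogonal_singleton_iff_inner_right.mp v.2
    rw [this, mul_zero]

lemma not_antipodal [Fact (3 ≤ n)] {q : E n → ℝ} (hq : Q q) {x y : E n} (hx : ‖x‖ = 1)
    (hmin : ∀ z : E n, ‖z‖ = 1 → q x - 2 * ‖x + y‖ ≤ q z - 2 * ‖z + y‖) : x + y ≠ 0 := by
  intro h0
  obtain ⟨v, hv, hxv⟩ := exists_perp hx
  have hy : y = -x := by rw [eq_neg_iff_add_eq_zero, add_comm]; exact h0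
  have hn : ∀ t, ‖gc x v t + y‖ = |2 * Real.sin (t / 2)| := by
    intro t
    have h : ‖gc x v t + y‖ ^ 2 = (2 * Real.sin (t / 2)) ^ 2 := by
      have hg : ⟪gc x v t, x⟫ = Real.cos t := by
        unfold gc
        have hvx : ⟪v, x⟫ = 0 := by rw [real_inner_comm]; exact hxv
        rw [inner_add_left, real_inner_smul_left, real_inner_smul_left,
          real_inner_self_eq_norm_sq, hx, hvx]
        ring
      rw [hy, ← sub_eq_add_neg, norm_sub_sq_real, gc_norm hx hv hxv, hx, hg]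
      have := Real.cos_sq' (t / 2)
      have h2 := Real.cos_two_mul (t / 2)
      rw [show 2 * (t / 2) = t by ring] at h2
      nlinarith
    rw [← abs_of_nonneg (norm_nonneg (gc x v t + y)), ← sq_eq_sq_iff_abs_eq_abs, h]
  have hα := q_gc hq.sm hx hv hxv 0
  set α := ∑ i, (-Real.sin 0 * x i + Real.cos 0 * v i) * pd i q (gc x v 0)
  have hs : HasDerivAt (fun t : ℝ => 4 * Real.sin (t / 2)) 2 0 := by
    have h1 : HasDerivAt (fun t : ℝ => t / 2) (1 / 2) 0 := (hasDerivAt_id (0:ℝ)).div_const 2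
    have h2 := ((Real.hasDerivAt_sin ((0:ℝ) / 2)).comp 0 h1).const_mul 4
    refine h2.congr_deriv ?_
    simp; norm_num
  have hm : ∀ t, q (gc x v 0) + 2 * |2 * Real.sin (t / 2)| ≤ q (gc x v t) := by
    intro t
    have h1 := hmin (gc x v t) (gc_norm hx hv hxv t)
    rw [hn t, h0, norm_zero] at h1
    rw [gc_zero]; linarith
  have m1 : IsLocalMin (fun t => q (gc x v t) - 4 * Real.sin (t / 2)) 0 := by
    refine Filter.Eventually.of_forall fun t => ?_
    have h1 := hm t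
    have h2 := le_abs_self (2 * Real.sin (t / 2))
    simp only [zero_div, Real.sin_zero, mul_zero, sub_zero]
    linarith
  have m2 : IsLocalMin (fun t => q (gc x v t) + 4 * Real.sin (t / 2)) 0 := by
    refine Filter.Eventually.of_forall fun t => ?_
    have h1 := hm t
    have h2 := neg_le_abs (2 * Real.sin (t / 2))
    simp only [zero_div, Real.sin_zero, mul_zero, add_zero]
    linarith
  have e1 := m1.hasDerivAt_eq_zero (hα.sub hs)
  have e2 := m2.hasDerivAt_eq_zero (hα.add hs)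
  linarith

lemma inner_sum (x y : E n) : ⟪x, y⟫ = ∑ i, x i * y i := by
  simp [PiLp.inner_apply, mul_comm]

lemma cond_perp {q : E n → ℝ} (hq : Q q) {x y : E n} (hx : ‖x‖ = 1) (hy : ‖y‖ = 1)
    (hmin : ∀ z : E n, ‖z‖ = 1 → q x - 2 * ‖x + y‖ ≤ q z - 2 * ‖z + y‖)
    {C : ℝ} (hC : 0 < C) (hxy : ‖x + y‖ = 2 * C) {w : E n} (hxw : ⟪x, w⟫ = 0) :
    C * ∑ i, w i * pd i q x = ⟪w, y⟫ ∧
      0 ≤ (∑ i, ∑ j, hs q i j x * w i * w j) + ⟪x, y⟫ / C * ∑ i, w i ^ 2 +
        ⟪w, y⟫ ^ 2 / (4 * C ^ 3) := by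
  rcases eq_or_ne w 0 with rfl | hw
  · simp
  have hn : ‖w‖ ≠ 0 := norm_ne_zero_iff.mpr hw
  have hn0 : 0 < ‖w‖ := norm_pos_iff.mpr hw
  set v : E n := ‖w‖⁻¹ • w with hv
  have hv1 : ‖v‖ = 1 := by rw [hv, norm_smul, norm_inv, norm_norm, inv_mul_cancel₀ hn]
  have hxv : ⟪x, v⟫ = 0 := by rw [hv, inner_smul_right, hxw, mul_zero]
  have hwv : ∀ i, w i = ‖w‖ * v i := by
    intro i
    rw [hv]; simp only [PiLp.smul_apply, smul_eq_mul]; field_simp
  obtain ⟨h1, h2⟩ := cond hq hx hy hmin hC hxy hv1 hxv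
  have hwy : ⟪w, y⟫ = ‖w‖ * ⟪v, y⟫ := by
    rw [hv, real_inner_smul_left]; field_simp
  have hs2 : ∑ i, w i ^ 2 = ‖w‖ ^ 2 := (EuclideanSpace.real_norm_sq_eq w).symm
  constructor
  · rw [hwy]
    have : ∑ i, w i * pd i q x = ‖w‖ * ∑ i, v i * pd i q x := by
      rw [Finset.mul_sum]; exact Finset.sum_congr rfl fun i _ => by rw [hwv i]; ring
    rw [this, h1]; field_simp
  · have e1 : ∑ i, ∑ j, hs q i j x * w i * w j = ‖w‖ ^ 2 * ∑ i, ∑ j, hs q i j x * v i * v j := by
      rw [Finset.mul_sum]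
      refine Finset.sum_congr rfl fun i _ => ?_
      rw [Finset.mul_sum]
      exact Finset.sum_congr rfl fun j _ => by rw [hwv i, hwv j]; ring
    rw [e1, hs2, hwy]
    have := mul_nonneg (sq_nonneg ‖w‖) h2
    refine this.trans_eq ?_
    ring

/-- contact points -/
theorem contact [Fact (3 ≤ n)] {q : E n → ℝ} (hq : Q q) (y : E n) (hy : ‖y‖ = 1) :
    ∃ x : E n, ‖x‖ = 1 ∧ gsq q x < 4 ∧ (∀ v : Fin n → ℝ, 0 ≤ qf (Bq q x) v v) ∧
      ∀ i, T q x i = y i := by
  have hcont : ContinuousOn (fun x : E n => q x - 2 * ‖x + y‖) (sphere 0 1) := by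
    refine ContinuousOn.sub ?_ (by fun_prop)
    intro x hx
    exact (hq.sm.contAt (ne0 (by simpa using hx))).continuousWithinAt
  obtain ⟨x, hxS, hxm⟩ := (isCompact_sphere (0 : E n) 1).exists_isMinOn
    ⟨y, by simpa using hy⟩ hcont
  have hx : ‖x‖ = 1 := by simpa using hxS
  have hmin : ∀ z : E n, ‖z‖ = 1 → q x - 2 * ‖x + y‖ ≤ q z - 2 * ‖z + y‖ := by
    intro z hz
    exact hxm (by simpa using hz)
  have hne := not_antipodal hq hx hmin
  obtain ⟨C, hC, hxy⟩ : ∃ C : ℝ, 0 < C ∧ ‖x + y‖ = 2 * C :=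
    ⟨‖x + y‖ / 2, by have := norm_pos_iff.mpr hne; positivity, by ring⟩
  have ha : ⟪x, y⟫ = 2 * C ^ 2 - 1 := by
    have : ‖x + y‖ ^ 2 = 4 * C ^ 2 := by rw [hxy]; ring
    rw [norm_add_sq_real, hx, hy] at this
    linarith
  set g : E n := WithLp.toLp 2 fun i => pd i q x with hg
  have hgi : ∀ i, g i = pd i q x := fun i => rfl
  have hxg : ⟪x, g⟫ = 0 := by rw [inner_sum]; exact xg hq (ne0 hx)
  have hyv : y = ⟪x, y⟫ • x + C • g := by
    rw [← sub_eq_zero]
    set w : E n := y - (⟪x, y⟫ • x + C • g) with hw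
    have hxw : ⟪x, w⟫ = 0 := by
      rw [hw, inner_sub_right, inner_add_right, inner_smul_right, inner_smul_right, hxg,
        real_inner_self_eq_norm_sq, hx]
      ring
    have h1 := (cond_perp hq hx hy hmin hC hxy hxw).1
    have h2 : ∑ i, w i * pd i q x = ⟪w, g⟫ := by rw [inner_sum]
    rw [h2] at h1
    have h3 : ⟪w, w⟫ = 0 := by
      conv_lhs => rw [hw]
      rw [← hw, inner_sub_left, inner_add_left, real_inner_smul_left, real_inner_smul_left, hxw]
      rw [real_inner_comm w y, ← h1, real_inner_comm g w]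
      ring
    exact inner_self_eq_zero.mp h3
  have hgg : ⟪g, g⟫ = 4 * (1 - C ^ 2) := by
    have h1 : ⟪y, y⟫ = 1 := by rw [real_inner_self_eq_norm_sq, hy]; ring
    have h2 : ⟪y, y⟫ = ⟪x, y⟫ ^ 2 + C ^ 2 * ⟪g, g⟫ := by
      conv_lhs => rw [hyv]
      rw [inner_add_left, inner_add_right, inner_add_right]
      simp only [real_inner_smul_left, inner_smul_right]
      rw [real_inner_comm x g, hxg, real_inner_self_eq_norm_sq x, hx]
      ring
    have hC2 : C ^ 2 ≠ 0 := by positivity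
    have h3 : C ^ 2 * ⟪g, g⟫ = C ^ 2 * (4 * (1 - C ^ 2)) := by
      rw [ha] at h2; nlinarith
    exact mul_left_cancel₀ hC2 h3
  have hgsq : gsq q x = 4 * (1 - C ^ 2) := by
    rw [← hgg, inner_sum]
    exact Finset.sum_congr rfl fun i _ => by rw [hgi]; ring
  have hcc : cc q x = C := by
    unfold cc
    rw [hgsq, show 1 - 4 * (1 - C ^ 2) / 4 = C ^ 2 by ring, Real.sqrt_sq hC.le]
  refine ⟨x, hx, ?_, ?_, ?_⟩
  · rw [hgsq]; nlinarith [pow_pos hC 2]
  · intro v
    set s : ℝ := ∑ i, x i * v i with hs_def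
    set w : E n := WithLp.toLp 2 fun i => v i - s * x i with hw
    have hwi : ∀ i, w i = v i - s * x i := fun i => rfl
    have hx2 := sum_sq hx
    have hxw : ⟪x, w⟫ = 0 := by
      rw [inner_sum]
      have e : ∀ i, x i * w i = x i * v i - s * x i ^ 2 := fun i => by rw [hwi]; ring
      simp only [e, Finset.sum_sub_distrib, ← Finset.mul_sum, hx2, mul_one, ← hs_def, sub_self]
    obtain ⟨h1, h2⟩ := cond_perp hq hx hy hmin hC hxy hxw
    rw [ha] at h2
    have key : qf (Bq q x) v v = (∑ i, ∑ j, hs q i j x * w i * w j) +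
        (2 * C ^ 2 - 1) / C * ∑ i, w i ^ 2 + ⟪w, y⟫ ^ 2 / (4 * C ^ 3) := by
      have hv : ∀ i, v i = w i + s * x i := fun i => by rw [hwi]; ring
      have e2 : ⟪w, y⟫ ^ 2 / (4 * C ^ 3) = (∑ i, w i * pd i q x) ^ 2 / (4 * C) := by
        rw [← h1]; field_simp
      have hxw' : ∑ i, x i * w i = 0 := by rw [← inner_sum]; exact hxw
      have hN := fun i => Nx' hq (ne0 hx) i
      have hN2 := fun j => Nx hq (ne0 hx) j
      have hg0 := xg hq (ne0 hx)
      rw [e2, qf_Bq, hcc]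
      have a1 : ∑ i, pd i q x * v i = ∑ i, w i * pd i q x := by
        have e : ∀ i, pd i q x * v i = w i * pd i q x + s * (x i * pd i q x) := fun i => by
          rw [hv]; ring
        simp only [e, Finset.sum_add_distrib, ← Finset.mul_sum, hg0, mul_zero, add_zero]
      have a2 : ∑ i, x i * v i = s := hs_def.symm
      have a3 : ∑ i, v i * v i = ∑ i, w i ^ 2 + s ^ 2 := by
        have e : ∀ i, v i * v i = w i ^ 2 + (2 * s) * (x i * w i) + s ^ 2 * x i ^ 2 := fun i => by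
          rw [hv]; ring
        simp only [e, Finset.sum_add_distrib, ← Finset.mul_sum, hxw', hx2, mul_zero, add_zero,
          mul_one]
      have a4 : ∑ i, ∑ j, hs q i j x * v i * v j =
          (∑ i, ∑ j, hs q i j x * w i * w j) - 2 * s * ∑ i, w i * pd i q x := by
        have e : ∀ i j, hs q i j x * v i * v j = hs q i j x * w i * w j +
            s * (w i * (hs q i j x * x j)) + s * ((x i * hs q i j x) * v j) := fun i j => by
          rw [hv, hv]; ring
        simp only [e, Finset.sum_add_distrib, ← Finset.mul_sum, hN]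
        rw [Finset.sum_comm (f := fun i j => x i * hs q i j x * v j)]
        simp only [← Finset.sum_mul, hN2]
        have e5 : ∑ i, -pd i q x * v i = - ∑ i, w i * pd i q x := by
          rw [← a1, ← Finset.sum_neg_distrib]
          exact Finset.sum_congr rfl fun i _ => by ring
        have e6 : ∑ i, w i * -pd i q x = - ∑ i, w i * pd i q x := by
          rw [← Finset.sum_neg_distrib]
          exact Finset.sum_congr rfl fun i _ => by ring
        rw [e5, e6]
        ring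
      rw [a1, a2, a3, a4]
      ring
    rw [key]; exact h2
  · intro i
    unfold T
    rw [hcc, ← ha]
    conv_rhs => rw [hyv]
    simp [hgi]

end Vale.Agent.P366.H707.N
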