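import Vale.Agent.P366.H707.Lint
import Vale.Agent.P366.H707.AdjCS
import Vale.Agent.P366.H707.N.C2
import Vale.Agent.P366.H707.N.Cone

/-! The map `x ↦ ∇ H(x) + x` whose radial lines are the null generators, all dimensions. -/

open MeasureTheory Metric Filter Topology Set
open scoped ContDiff ENNReal

noncomputable section
namespace Vale.Agent.P366.H707.N

open Vale.Agent.P366 (sphI sphM pd E polar)
open Vale.Agent.P366.H353.N

variable {n : ℕ}

/-- determinant of the derivative in components -/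
lemma det_fderiv {f : E n → E n} {F : Fin n → E n → ℝ} (hf : ∀ x i, f x i = F i x) {x : E n}
    (hd : DifferentiableAt ℝ f x) :
    (fderiv ℝ f x).det = Matrix.det (Matrix.of fun i j => pd j (F i) x) := by
  have hL : ∀ i j, (fderiv ℝ f x (EuclideanSpace.single j 1)) i = pd j (F i) x := by
    intro i j
    have h0 : F i = fun y => f y i := funext fun y => (hf y i).symm
    have h2 : HasFDerivAt (F i)
        ((EuclideanSpace.proj (𝕜 := ℝ) i : E n →L[ℝ] ℝ).comp (fderiv ℝ f x)) x := by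
      rw [h0]
      exact (EuclideanSpace.proj (𝕜 := ℝ) i : E n →L[ℝ] ℝ).hasFDerivAt.comp x hd.hasFDerivAt
    unfold pd
    rw [h2.fderiv]
    rfl
  have h3 : (fderiv ℝ f x).det = LinearMap.det ((fderiv ℝ f x : E n →L[ℝ] E n) : E n →ₗ[ℝ] E n) :=
    rfl
  rw [h3, ← LinearMap.det_toMatrix (EuclideanSpace.basisFun (Fin n) ℝ).toBasis]
  congr 1
  ext i j
  rw [LinearMap.toMatrix_apply]
  simp [hL]

/-- The map `x ↦ ∇ H(x) + x`. -/
def Psi (H : E n → ℝ) (x : E n) : E n := WithLp.toLp 2 fun i => pd i H x + x i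

/-- `Hess H + s I` on the tangent space of the sphere at the unit vector `x`. -/
def WW (H : E n → ℝ) (s : ℝ) (x : E n) (i j : Fin n) : ℝ := hs H i j x + s * pr x i j

/-- The determinant of `Hess H + s I` on the tangent space at the unit vector `x`. -/
def dW (H : E n → ℝ) (s : ℝ) (x : E n) : ℝ := dtan x (WW H s x)

variable {H U : E n → ℝ}

lemma Psi_diff (hH : Sm H) {x : E n} (hx : x ≠ 0) : DifferentiableAt ℝ (Psi H) x := by
  rw [differentiableAt_euclidean]
  intro i
  exact ((hH.pd i).add (Sm.coord i)).diff hx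

lemma Psi_smooth (hH : Sm H) {x : E n} (hx : x ≠ 0) : ContDiffAt ℝ ∞ (Psi H) x := by
  rw [contDiffAt_euclidean]
  intro i
  exact ((hH.pd i).add (Sm.coord i)) x hx

lemma Psi_smul (hH : Sm H) (h1 : Hom 1 H) {x : E n} (hx : x ≠ 0) {r : ℝ} (hr : 0 < r) (i : Fin n) :
    Psi H (r • x) i = pd i H x + r * x i := by
  have h := Hom.pd hH h1 i x hx r hr
  change pd i H (r • x) + (r • x) i = _
  rw [h]; simp

lemma hs_smul (hH : Sm H) (h1 : Hom 1 H) {x : E n} (hx : x ≠ 0) {r : ℝ} (hr : 0 < r)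
    (i j : Fin n) : hs H i j (r • x) = hs H i j x / r := by
  have h := Hom.hs hH h1 i j x hx r hr
  rw [h, show (1 - 2 : ℤ) = -1 by norm_num, zpow_neg_one]
  field_simp

lemma hsx (hH : Sm H) (h1 : Hom 1 H) {x : E n} (hx : x ≠ 0) (i : Fin n) :
    ∑ j, hs H i j x * x j = 0 := by
  have h := Hom.euler (hH.pd i) (Hom.pd hH h1 i) hx
  rw [show ((1 - 1 : ℤ) : ℝ) * pd i H x = 0 by norm_num] at h
  rw [← h]
  refine Finset.sum_congr rfl fun j _ => ?_
  rw [H353.N.hs_symm hH hx i j]
  unfold hs; ring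

lemma kd_x (x : E n) (i : Fin n) : ∑ j, kd i j * x j = x i := by simp [kd]

lemma pr_x {x : E n} (hx : ‖x‖ = 1) (i : Fin n) : ∑ j, pr x i j * x j = 0 := by
  have h := sum_sq hx
  have e : ∀ j, pr x i j * x j = kd i j * x j - x i * x j ^ 2 := fun j => by unfold pr; ring
  simp only [e, Finset.sum_sub_distrib, ← Finset.mul_sum, kd_x, h]
  ring

lemma WW_x (hH : Sm H) (h1 : Hom 1 H) {x : E n} (hx : ‖x‖ = 1) (s : ℝ) (i : Fin n) :
    ∑ j, WW H s x i j * x j = 0 := by
  have e : ∀ j, WW H s x i j * x j = hs H i j x * x j + s * (pr x i j * x j) := fun j => by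
    unfold WW; ring
  simp only [e, Finset.sum_add_distrib, ← Finset.mul_sum, hsx hH h1 (ne0 hx), pr_x hx]
  ring

lemma WW_symm (hH : Sm H) {x : E n} (hx : x ≠ 0) (s : ℝ) (i j : Fin n) :
    WW H s x i j = WW H s x j i := by
  unfold WW pr
  rw [H353.N.hs_symm hH hx i j]
  have h2 : kd i j = kd j i := by unfold kd; simp only [eq_comm]
  rw [h2]; ring

/-- `det (M + c x xᵀ) = c det (M + x xᵀ)` if `M` vanishes on `x`. -/
lemma det_scale {x : Fin n → ℝ} {M : Fin n → Fin n → ℝ} (hx : ∑ i, x i * x i = 1)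
    (hM : ∀ i, ∑ j, M i j * x j = 0) (c : ℝ) :
    Matrix.det (Matrix.of fun i j => M i j + c * (x i * x j)) = c * dtan x M := by
  have h1 : (Matrix.of fun i j => M i j + c * (x i * x j) : Matrix (Fin n) (Fin n) ℝ) =
      (Matrix.of fun i j => M i j + x i * x j) *
        (1 + Matrix.replicateCol Unit ((c - 1) • x) * Matrix.replicateRow Unit x) := by
    ext i j
    rw [Matrix.mul_add, Matrix.mul_one, Matrix.add_apply, ← Matrix.mul_assoc, Matrix.mul_apply]
    simp only [Matrix.of_apply, Finset.univ_unique, Finset.sum_singleton, Matrix.mul_apply,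
      Matrix.replicateCol_apply, Matrix.replicateRow_apply, Pi.smul_apply, smul_eq_mul]
    have e : ∀ k, (M i k + x i * x k) * ((c - 1) * x k) =
        (c - 1) * (M i k * x k) + (c - 1) * x i * (x k * x k) := fun k => by ring
    simp only [e, Finset.sum_add_distrib, ← Finset.mul_sum, hM, hx]
    ring
  rw [h1, Matrix.det_mul]
  have h2 : (1 + Matrix.replicateCol Unit ((c - 1) • x) * Matrix.replicateRow Unit x).det = c := by
    rw [Matrix.det_one_add_mul_comm, Matrix.det_unique]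
    simp only [Matrix.add_apply, Matrix.one_apply_eq, Matrix.mul_apply, Matrix.replicateRow_apply,
      Matrix.replicateCol_apply, Pi.smul_apply, smul_eq_mul]
    have e : ∀ k, x k * ((c - 1) * x k) = (c - 1) * (x k * x k) := fun k => by ring
    simp only [e, ← Finset.mul_sum, hx]
    ring
  rw [h2]
  unfold dtan
  ring

lemma det_DPsi (hH : Sm H) (h1 : Hom 1 H) {x : E n} (hx : ‖x‖ = 1) {r : ℝ} (hr : 0 < r) :
    (fderiv ℝ (Psi H) (r • x)).det = dW H r x / r ^ (n - 1) := by
  have hx0 := ne0 hx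
  have hrx : r • x ≠ 0 := smul_ne_zero hr.ne' hx0
  have hn : 0 < n := by
    rcases Nat.eq_zero_or_pos n with h | h
    · subst h
      exact absurd (Subsingleton.elim x 0) hx0
    · exact h
  rw [det_fderiv (F := fun i y => pd i H y + y i) (fun _ _ => rfl) (Psi_diff hH hrx)]
  have e1 : ∀ i j, pd j (fun y => pd i H y + y i) (r • x) =
      r⁻¹ * (WW H r x i j + r * (x i * x j)) := by
    intro i j
    rw [pd_add' (hH.pd i) (Sm.coord i) hrx, pd_coord']
    have h2 : pd j (pd i H) (r • x) = hs H i j x / r := by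
      change hs H j i (r • x) = _
      rw [hs_smul hH h1 hx0 hr, H353.N.hs_symm hH hx0]
    rw [h2]
    have h3 : kd j i = kd i j := by unfold kd; simp only [eq_comm]
    rw [h3]
    unfold WW pr
    field_simp
    ring
  have e2 : (Matrix.of fun i j => pd j (fun y => pd i H y + y i) (r • x)) =
      r⁻¹ • (Matrix.of fun i j => WW H r x i j + r * (x i * x j)) := by
    ext i j
    rw [Matrix.of_apply, e1, Matrix.smul_apply, Matrix.of_apply, smul_eq_mul]
  have h4 : ∑ i, x i * x i = 1 := by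
    rw [← sum_sq hx]; exact Finset.sum_congr rfl fun i _ => by ring
  rw [e2, Matrix.det_smul, Fintype.card_fin, det_scale h4 (fun i => WW_x hH h1 hx r i)]
  unfold dW
  obtain ⟨m, rfl⟩ : ∃ m, n = m + 1 := ⟨n - 1, by omega⟩
  rw [Nat.add_sub_cancel, pow_succ, inv_pow]
  have hrm : r ^ m ≠ 0 := pow_ne_zero _ hr.ne'
  field_simp

/-- The points `x` with `U x ≤ ‖x‖`: parameters of the exterior domain. -/
def Par (U : E n → ℝ) : Set (E n) := {x | x ≠ 0 ∧ U x ≤ ‖x‖}

lemma Par_meas (hU : Sm U) : MeasurableSet (Par U) := by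
  have h1 : ContinuousOn (fun x : E n => ‖x‖ - U x) {x | x ≠ 0} := fun x hx =>
    (continuous_norm.continuousAt.sub (hU.contAt hx)).continuousWithinAt
  have h2 := (h1.isOpen_inter_preimage isOpen_ne (isOpen_Iio (a := (0:ℝ)))).measurableSet
  have h3 : Par U = {x | x ≠ 0} \ ({x : E n | x ≠ 0} ∩ (fun x : E n => ‖x‖ - U x) ⁻¹' Iio 0) := by
    ext x
    simp only [Par, mem_ofPred_eq, Set.mem_sdiff, mem_inter_iff, mem_preimage, mem_Iio, not_and,
      not_lt, sub_nonneg]
    tauto
  rw [h3]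
  exact isOpen_ne.measurableSet.diff h2

/-- the level `‖x‖ = U x` is a null set -/
lemma level_zero [Fact (3 ≤ n)] (hU : Sm U) (h0 : Hom 0 U) :
    (volume : Measure (E n)) {x | x ≠ 0 ∧ U x = ‖x‖} = 0 := by
  have hm : MeasurableSet {x : E n | x ≠ 0 ∧ U x = ‖x‖} := by
    have h1 : ContinuousOn (fun x : E n => ‖x‖ - U x) {x | x ≠ 0} := fun x hx =>
      (continuous_norm.continuousAt.sub (hU.contAt hx)).continuousWithinAt
    have h2 := (h1.isOpen_inter_preimage isOpen_ne (isOpen_compl_singleton (x := (0:ℝ)))).measurableSet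
    have h3 : {x : E n | x ≠ 0 ∧ U x = ‖x‖} =
        {x | x ≠ 0} \ ({x : E n | x ≠ 0} ∩ (fun x : E n => ‖x‖ - U x) ⁻¹' {0}ᶜ) := by
      ext x
      simp only [mem_ofPred_eq, Set.mem_sdiff, mem_inter_iff, mem_preimage, mem_compl_iff,
        mem_singleton_iff, sub_eq_zero]
      constructor
      · rintro ⟨a, b⟩
        exact ⟨a, fun h => h.2 b.symm⟩
      · rintro ⟨a, b⟩
        refine ⟨a, ?_⟩
        by_contra hc
        exact b ⟨a, fun h => hc h.symm⟩
    rw [h3]
    exact isOpen_ne.measurableSet.diff h2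
  have h4 := lint_polar ({x : E n | x ≠ 0 ∧ U x = ‖x‖}.indicator fun _ => (1:ℝ≥0∞))
    (measurable_const.indicator hm)
  rw [lintegral_indicator hm, setLIntegral_one] at h4
  rw [h4]
  refine lintegral_eq_zero_of_ae_eq_zero (Eventually.of_forall fun θ => ?_)
  simp only [Pi.zero_apply]
  refine lintegral_eq_zero_of_ae_eq_zero ?_
  have h5 : ∀ᵐ r : ℝ ∂(volume.restrict (Ioi (0:ℝ))), r ≠ U (θ : E n) := by
    refine ae_restrict_of_ae ?_
    have : (volume : Measure ℝ) {U (θ : E n)} = 0 := by simp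
    rw [ae_iff]
    simp
  filter_upwards [h5, ae_restrict_mem measurableSet_Ioi] with r hr hr0
  have hr0 : 0 < r := hr0
  have hθ : ‖(θ : E n)‖ = 1 := norm_eq_of_mem_sphere θ
  rw [indicator_of_notMem, mul_zero]; rfl
  rintro ⟨-, h6⟩
  rw [h0 _ (ne0 hθ) r hr0, norm_smul, hθ, Real.norm_eq_abs, abs_of_pos hr0] at h6
  simp only [zpow_zero, one_mul, mul_one] at h6
  exact hr h6.symm

end Vale.Agent.P366.H707.N
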