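import Vale.Agent.P366.H707.N.Asm
import Vale.Agent.P366.H896.N.X5a
import Vale.Agent.P366.H474.N.FarG

/-! Energy and momentum of Kerr-Schild exteriors in all dimensions. -/

open MeasureTheory Metric Filter Topology Set
open scoped ContDiff ENNReal

noncomputable section
namespace Vale.Agent.P366.KSN

open Vale.Agent.P366 (pd E)
open Vale.Agent.P366.H353.N
open Vale.Agent.P366.Kerr (NullCone IsSlice Region Psi pt sp nul ksG indG indK DECat)

variable {n : ℕ} {C : NullCone n} {lam f : E n → ℝ} {V : E (n + 1) → ℝ} {D : Stmt.Exterior n}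

/-- the energy as a limit of integrals over the level sets, given the monotonicity -/
theorem energy_lim_mono [Fact (3 ≤ n)] (hS : IsSlice C lam V f D)
    (hV : ∀ p ∈ Region lam f D, ContDiffAt ℝ ∞ V p ∧ DECat (ksG lam V) (nul lam) p)
    (hAF : D.IsAF) {m : ℝ} (hm : D.IsEnergy m)
    (hmono : ∃ L0 : ℝ, ∀ s s', L0 ≤ s → s ≤ s' → SI (fun x => V (pt 0 (Y C.H x s)) * sg C.H s x) ≤
      SI (fun x => V (pt 0 (Y C.H x s')) * sg C.H s' x)) :
    Tendsto (fun L => SI (fun x => V (pt 0 (Y C.H x L)) * sg C.H L x)) atTop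
      (𝓝 (2 * ((n : ℝ) - 1) * om n * m)) := by
  obtain ⟨R, M, hF⟩ := X5.exists_far hS hV
  have h := energy_lim_of hS hF (X5.flux_e hS hF hAF hm) hmono
  rwa [show 2 * (((n : ℝ) - 1) * om n * m) = 2 * ((n : ℝ) - 1) * om n * m by ring] at h

theorem momentum_eq [Fact (3 ≤ n)] (hS : IsSlice C lam V f D)
    (hV : ∀ p ∈ Region lam f D, ContDiffAt ℝ ∞ V p ∧ DECat (ksG lam V) (nul lam) p)
    (hAF : D.IsAF) {m : ℝ} (hm : D.IsEnergy m) {P : Fin n → ℝ} (hP : D.IsMomentum P) (i : Fin n)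
    {q : ℝ} (hq : Tendsto (fun L => SI (fun x => V (pt 0 (Y C.H x L)) * sg C.H L x * x i)) atTop
      (𝓝 q)) : q = 2 * ((n : ℝ) - 1) * om n * P i := by
  obtain ⟨R, M, hF⟩ := X5.exists_far hS hV
  have h := momentum_eq_of hS hF i (X5.flux_e hS hF hAF hm) (X5.flux_P hS hF hAF hP i) hq
  rw [h]
  ring

end Vale.Agent.P366.KSN
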