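import Vale.Agent.P366.H353.N.Defs

/-! The determinant of the Jacobian of the transport map. -/

open MeasureTheory Metric Filter Topology Set
open scoped ContDiff

noncomputable section
namespace Vale.Agent.P366.H353.N

variable {n : ℕ} [Fact (3 ≤ n)]

theorem jac_alg {x g : Fin n → ℝ} {C : ℝ} {B J : Fin n → Fin n → ℝ} (hx : ∑ i, x i ^ 2 = 1)
    (hxg : ∑ i, x i * g i = 0) (hC : 0 < C) (hgC : ∑ i, g i ^ 2 = 4 * (1 - C ^ 2))
    (hBs : ∀ i j, B i j = B j i) (hBx : ∀ i, ∑ j, B i j * x j = 0)
    (hJ : ∀ i j, J i j = ((2 * C ^ 2 - 1) * x i + C * g i) * x j + C * B i j -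
      (g i / (4 * C) + x i) * ∑ k, g k * B k j) :
    Matrix.det (Matrix.of J) = C ^ (n - 3) * dtan x B := by
  have hn : 3 ≤ n := Fact.out
  -- the columns of `U` and the rows of `V`
  set u : Fin 2 → Fin n → ℝ := ![fun i => -(x i + g i / (4 * C)),
    fun i => (2 * C ^ 2 - 1) * x i + C * g i - C * x i] with hu
  set v : Fin 2 → Fin n → ℝ := ![g, x] with hv
  set U : Matrix (Fin n) (Fin 2) ℝ := Matrix.of fun i a => u a i with hU
  set V : Matrix (Fin 2) (Fin n) ℝ := Matrix.of fun a i => v a i with hV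
  have hxx : ∑ i, x i * x i = 1 := by rw [← hx]; exact Finset.sum_congr rfl fun i _ => by ring
  have hgg : ∑ i, g i * g i = 4 * (1 - C ^ 2) := by
    rw [← hgC]; exact Finset.sum_congr rfl fun i _ => by ring
  have hgx : ∑ i, g i * x i = 0 := by rw [← hxg]; exact Finset.sum_congr rfl fun i _ => by ring
  have hxB : ∀ j, ∑ k, x k * B k j = 0 := by
    intro j
    rw [← hBx j]
    exact Finset.sum_congr rfl fun k _ => by rw [hBs k j]; ring
  have hfac : Matrix.of J = (C • (1 : Matrix (Fin n) (Fin n) ℝ) + U * V) *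
      Matrix.of fun i j => B i j + x i * x j := by
    ext i j
    rw [Matrix.add_mul, Matrix.smul_mul, Matrix.one_mul, Matrix.mul_assoc, Matrix.add_apply,
      Matrix.smul_apply, Matrix.mul_apply, Fin.sum_univ_two, Matrix.mul_apply, Matrix.mul_apply]
    simp only [hU, hV, hu, hv, Matrix.of_apply, Matrix.cons_val_zero, Matrix.cons_val_one,
      smul_eq_mul]
    have e1 : ∑ k, g k * (B k j + x k * x j) = ∑ k, g k * B k j := by
      have : ∀ k, g k * (B k j + x k * x j) = g k * B k j + g k * x k * x j := fun k => by ring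
      simp only [this, Finset.sum_add_distrib, ← Finset.sum_mul, hgx, zero_mul, add_zero]
    have e2 : ∑ k, x k * (B k j + x k * x j) = x j := by
      have : ∀ k, x k * (B k j + x k * x j) = x k * B k j + x k * x k * x j := fun k => by ring
      simp only [this, Finset.sum_add_distrib, ← Finset.sum_mul, hxx, hxB, one_mul, zero_add]
    rw [e1, e2, hJ]
    ring
  have hdet : (C • (1 : Matrix (Fin n) (Fin n) ℝ) + U * V).det = C ^ (n - 3) := by
    have h1 : C • (1 : Matrix (Fin n) (Fin n) ℝ) + U * V = C • (1 + (C⁻¹ • U) * V) := by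
      rw [smul_add, Matrix.smul_mul, smul_smul, mul_inv_cancel₀ hC.ne', one_smul]
    have h2 : V * (C⁻¹ • U) = !![C⁻¹ * (-(1 - C ^ 2) / C), C⁻¹ * (4 * C * (1 - C ^ 2));
        C⁻¹ * (-1), C⁻¹ * (2 * C ^ 2 - 1 - C)] := by
      have a1 : ∑ k, g k * (-(x k + g k / (4 * C))) = -(1 - C ^ 2) / C := by
        have : ∀ k, g k * (-(x k + g k / (4 * C))) = -(g k * x k) - (g k * g k) * (1 / (4 * C)) :=
          fun k => by ring
        simp only [this, Finset.sum_sub_distrib, ← Finset.sum_mul, Finset.sum_neg_distrib, hgx, hgg]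
        field_simp
        ring
      have a2 : ∑ k, g k * ((2 * C ^ 2 - 1) * x k + C * g k - C * x k) = 4 * C * (1 - C ^ 2) := by
        have : ∀ k, g k * ((2 * C ^ 2 - 1) * x k + C * g k - C * x k) =
          (g k * x k) * (2 * C ^ 2 - 1 - C) + (g k * g k) * C := fun k => by ring
        simp only [this, Finset.sum_add_distrib, ← Finset.sum_mul, hgx, hgg]
        ring
      have a3 : ∑ k, x k * (-(x k + g k / (4 * C))) = -1 := by
        have : ∀ k, x k * (-(x k + g k / (4 * C))) = -(x k * x k) - (x k * g k) * (1 / (4 * C)) :=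
          fun k => by ring
        simp only [this, Finset.sum_sub_distrib, ← Finset.sum_mul, Finset.sum_neg_distrib, hxx, hxg]
        ring
      have a4 : ∑ k, x k * ((2 * C ^ 2 - 1) * x k + C * g k - C * x k) = 2 * C ^ 2 - 1 - C := by
        have : ∀ k, x k * ((2 * C ^ 2 - 1) * x k + C * g k - C * x k) =
          (x k * x k) * (2 * C ^ 2 - 1 - C) + (x k * g k) * C := fun k => by ring
        simp only [this, Finset.sum_add_distrib, ← Finset.sum_mul, hxx, hxg]
        ring
      rw [Matrix.mul_smul]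
      ext a b
      rw [Matrix.smul_apply, Matrix.mul_apply]
      simp only [hU, hV, hu, hv, Matrix.of_apply, smul_eq_mul]
      fin_cases a <;> fin_cases b
      · exact congrArg (C⁻¹ * ·) a1
      · exact congrArg (C⁻¹ * ·) a2
      · exact congrArg (C⁻¹ * ·) a3
      · exact congrArg (C⁻¹ * ·) a4
    rw [h1, Matrix.det_smul, Matrix.det_one_add_mul_comm, h2, Fintype.card_fin, Matrix.det_fin_two]
    simp only [Matrix.add_apply, Matrix.one_apply, Matrix.of_apply, Matrix.cons_val', Matrix.cons_val_zero,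
      Matrix.cons_val_one, Matrix.cons_val_fin_one, Fin.isValue, ↓reduceIte, zero_ne_one, one_ne_zero]
    have h3 : C ^ n = C ^ (n - 3) * C ^ 3 := by rw [← pow_add, Nat.sub_add_cancel hn]
    rw [h3]
    field_simp
    ring
  rw [hfac, Matrix.det_mul, hdet]
  rfl

end Vale.Agent.P366.H353.N
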