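import Vale.Agent.P366.H707.N.Level
import Vale.Agent.P366.H896.N.X5d
import Vale.Agent.P366.H296.N.Par

/-! Energy and momentum of Kerr-Schild exteriors: assembly. -/

open MeasureTheory Metric Filter Topology Set
open scoped ContDiff ENNReal

noncomputable section
namespace Vale.Agent.P366.KSN

open Vale.Agent.P366 (pd E flux sphI sphM)
open Vale.Agent.P366.H353.N
open Vale.Agent.P366.Kerr (NullCone IsSlice Region Psi pt sp nul ksG indG indK DECat)
open Vale.Agent.P366.H707.N (Par dW lflux av)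

variable {n : ℕ} {C : NullCone n} {lam f : E n → ℝ} {V : E (n + 1) → ℝ} {D : Stmt.Exterior n}
  {x y z : E n} {s t R M : ℝ}

lemma flux_eq_sphInt (F : Fin n → E n → ℝ) :
    flux F = fun r => Stmt.sphInt r fun y => ∑ i, F i y * (y i / ‖y‖) := by
  funext r
  rw [Vale.Agent.P366.sphInt_eq]
  rfl

/-! ### continuity in the height -/

lemma coord_joint (i : Fin n) (S : Set (ℝ × E n)) : ContinuousOn (fun p : ℝ × E n => p.2 i) S :=
  ((EuclideanSpace.proj (𝕜 := ℝ) i : E n →L[ℝ] ℝ).continuous.comp continuous_snd).continuousOn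

lemma sm_joint {g : E n → ℝ} (hg : Sm g) (T : Set ℝ) :
    ContinuousOn (fun p : ℝ × E n => g p.2) (T ×ˢ sphere 0 1) :=
  hg.contOn.comp continuous_snd.continuousOn fun _ hp => hp.2

lemma dts_joint (C : NullCone n) (T : Set ℝ) :
    ContinuousOn (fun p : ℝ × E n => dts C.H p.1 p.2) (T ×ˢ sphere 0 1) := by
  have hM : ∀ i j, ContinuousOn (fun p : ℝ × E n => Ms C.H p.1 p.2 i j) (T ×ˢ sphere 0 1) := by
    intro i j
    have e : ∀ p : ℝ × E n, Ms C.H p.1 p.2 i j =
        hs C.H i j p.2 + p.1 * (kd i j - p.2 i * p.2 j) + p.2 i * p.2 j := fun _ => rfl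
    simp only [e]
    have h1 : ContinuousOn (fun p : ℝ × E n => hs C.H i j p.2) (T ×ˢ sphere 0 1) :=
      sm_joint (((smH C).pd j).pd i) T
    have hi := coord_joint (n := n) i (T ×ˢ sphere 0 1)
    have hj := coord_joint (n := n) j (T ×ˢ sphere 0 1)
    exact (h1.add (continuous_fst.continuousOn.mul (continuousOn_const.sub (hi.mul hj)))).add
      (hi.mul hj)
  simp only [dts, Matrix.det_apply]
  refine continuousOn_finsetSum _ fun σ _ => ?_
  exact (continuousOn_finsetProd _ fun i _ => hM (σ i) i).const_smul _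

lemma Y_joint (C : NullCone n) (T : Set ℝ) :
    ContinuousOn (fun p : ℝ × E n => Y C.H p.2 p.1) (T ×ˢ sphere 0 1) := by
  have h : ∀ i, ContinuousOn (fun p : ℝ × E n => pd i C.H p.2 + p.1 * p.2 i)
      (T ×ˢ sphere 0 1) := fun i =>
    (sm_joint ((smH C).pd i) T).add (continuous_fst.continuousOn.mul (coord_joint i _))
  have h2 : ContinuousOn (fun p : ℝ × E n => fun i => pd i C.H p.2 + p.1 * p.2 i)
      (T ×ˢ sphere 0 1) := continuousOn_pi.mpr h
  exact (PiLp.continuous_toLp 2 _).comp_continuousOn h2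

lemma lflux_cont (C : NullCone n) {F : Fin n → E n → ℝ} {c c' : ℝ} (hc0 : 0 < c)
    (hF : ∀ i x s, ‖x‖ = 1 → c ≤ s → ContinuousAt (F i) (Y C.H x s)) :
    ContinuousOn (lflux C.H F) (Icc c c') := by
  have h := Vale.Agent.P366.H296.N.SI_continuousOn (a := c) (b := c')
    (g := fun s (x : E n) => dts C.H s x * ∑ i, F i (Y C.H x s) * x i) ?_
  · refine h.congr fun s hs => ?_
    exact lflux_Y C F (hc0.trans_le hs.1)
  · refine (dts_joint C _).mul (continuousOn_finsetSum _ fun i _ => ?_)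
    refine ContinuousOn.mul ?_ (coord_joint i _)
    intro p hp
    have h1 := Y_joint C (Icc c c') p hp
    have h2 : ContinuousAt (F i) (Y C.H p.2 p.1) := hF i p.2 p.1 (by simpa using hp.2) hp.1.1
    exact ContinuousAt.comp_continuousWithinAt (f := fun p : ℝ × E n => Y C.H p.2 p.1) h2 h1

/-! ### the fluxes through the level sets -/

lemma FarD.U_le (hF : X5.FarD C lam f V D R M) (hs : R + M < s) (hx : x ≠ 0) : C.U x ≤ s := by
  have hn := norm_pos_iff.mpr hx
  have h := (hF.Yfar (‖x‖⁻¹ • x) s (Vale.Agent.P366.H707.N.norm_unit hn) hs).1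
  rw [U_smul C hx (inv_pos.mpr hn)] at h
  exact h.le

theorem lflux_Fe (hS : IsSlice C lam V f D) (hF : X5.FarD C lam f V D R M) (hs0 : 0 < s)
    (hs : R + M < s) : lflux C.H (X5.Fe lam (V0 V)) s =
      SI (fun x => V (pt 0 (Y C.H x s)) * sg C.H s x) / 2 := by
  rw [lflux_Y C _ hs0]
  have e : ∀ x : E n, ‖x‖ = 1 → dts C.H s x * ∑ i, X5.Fe lam (V0 V) i (Y C.H x s) * x i =
      (1 / 2) * (V (pt 0 (Y C.H x s)) * sg C.H s x) := by
    intro x hx
    obtain ⟨hU, hy⟩ := hF.Yfar x s hx hs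
    have h1 := X5.Fe_n hF.toFar hy
    simp only [pd_lam_Y hS hx hU.le] at h1
    rw [h1, ← lap_lam_Y hS hx hU.le]
    unfold V0
    ring
  rw [SI_congr e, SI_cmul]
  ring

theorem lflux_Pi [Fact (3 ≤ n)] (hS : IsSlice C lam V f D) (hF : X5.FarD C lam f V D R M)
    (hs0 : 0 < s) (hs : R + M < s) (i : Fin n) : lflux C.H (X5.Pi lam (V0 V) (Vt V) i) s =
      SI (fun x => V (pt 0 (Y C.H x s)) * sg C.H s x * x i) / 2 := by
  rw [lflux_Y C _ hs0]
  have hUs : ∀ x : E n, x ≠ 0 → C.U x ≤ s := fun x hx => FarD.U_le hF hs hx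
  have hg : ∀ x : E n, ‖x‖ = 1 → ContDiffAt ℝ ∞ (V0 V) (Y C.H x s) := fun x hx =>
    hF.sv _ (hF.Yfar x s hx hs).2
  have e : ∀ x : E n, ‖x‖ = 1 →
      dts C.H s x * ∑ j, X5.Pi lam (V0 V) (Vt V) i j (Y C.H x s) * x j =
      V0 V (Y C.H x s) * sg C.H s x * x i - (1 / 2) * (dts C.H s x *
        (pd i (V0 V) (Y C.H x s) - (∑ k, x k * pd k (V0 V) (Y C.H x s)) * x i)) := by
    intro x hx
    obtain ⟨hU, hy⟩ := hF.Yfar x s hx hs
    have hH := hs_lam_mul_x hS hx hU.le i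
    have hxx := sum_xx hx
    have hdn : X5.dn lam (V0 V) (Y C.H x s) = ∑ k, x k * pd k (V0 V) (Y C.H x s) := by
      unfold X5.dn
      simp only [pd_lam_Y hS hx hU.le]
    have e1 : ∀ j, X5.Pi lam (V0 V) (Vt V) i j (Y C.H x s) * x j =
        -(1 / 2) * pd i (V0 V) (Y C.H x s) * (x j * x j) -
        (1 / 2) * x i * (x j * pd j (V0 V) (Y C.H x s)) -
        V0 V (Y C.H x s) * (H353.N.hs lam i j (Y C.H x s) * x j) +
        (1 / 2) * Vt V (Y C.H x s) * x i * (x j * x j) +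
        (X5.dn lam (V0 V) (Y C.H x s) + V0 V (Y C.H x s) * lap lam (Y C.H x s) -
          Vt V (Y C.H x s) / 2) * (kd i j * x j) := by
      intro j
      unfold X5.Pi
      simp only [pd_lam_Y hS hx hU.le]
      ring
    simp only [e1, Finset.sum_add_distrib, Finset.sum_sub_distrib, ← Finset.mul_sum, hxx, hH,
      sum_kd_mul, ← hdn]
    rw [← lap_lam_Y hS hx hU.le]
    ring
  have hpc : ∀ k, ContinuousOn (fun x => pd k (V0 V) (Y C.H x s)) (sphere 0 1) := fun k =>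
    cont_comp_Y C fun x hx => pd_contDiffAt (hg x hx) k
  have hc : ∀ k : Fin n, ContinuousOn (fun x : E n => x k) (sphere 0 1) := fun k =>
    (EuclideanSpace.proj (𝕜 := ℝ) k : E n →L[ℝ] ℝ).continuous.continuousOn
  have hint1 : ContinuousOn (fun x => (1 / 2 : ℝ) * (dts C.H s x * (pd i (V0 V) (Y C.H x s) -
      (∑ k, x k * pd k (V0 V) (Y C.H x s)) * x i))) (sphere 0 1) :=
    continuousOn_const.mul ((dts_cont C (Sm.const s)).mul ((hpc i).sub
      ((continuousOn_finsetSum _ fun k _ => (hc k).mul (hpc k)).mul (hc i))))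
  have hint2 : ContinuousOn (fun x => V0 V (Y C.H x s) * sg C.H s x * x i) (sphere 0 1) :=
    ((cont_comp_Y C hg).mul (sg_cont C (Sm.const s))).mul (hc i)
  rw [SI_congr e, SI_sub hint2 hint1, SI_cmul, piola_level C hUs hg i]
  unfold V0
  ring

/-! ### smoothness of the fields -/

lemma cd_Fe (hF : X5.FarD C lam f V D R M) (i : Fin n) (y : E n) (hy : R < ‖y‖) :
    ContDiffAt ℝ ∞ (X5.Fe lam (V0 V) i) y := by
  have hl := hF.sl y hy
  have hv := hF.sv y hy
  unfold X5.Fe X5.dn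
  exact ((((ContDiffAt.sum fun k _ => (X5.cd_pd hl k).mul (X5.cd_pd hv k)).add
    (hv.mul (X5.Far.cd_lap hF.toFar hy))).mul (X5.cd_pd hl i)).sub (X5.cd_pd hv i)).div_const _

lemma cd_Pi (hF : X5.FarD C lam f V D R M) (i j : Fin n) (y : E n) (hy : R < ‖y‖) :
    ContDiffAt ℝ ∞ (X5.Pi lam (V0 V) (Vt V) i j) y := by
  have hl := hF.sl y hy
  have hv := hF.sv y hy
  have ht := hF.st y hy
  unfold X5.Pi X5.dn
  refine ((((((X5.cd_pd hv i).mul (X5.cd_pd hl j)).add
    ((X5.cd_pd hv j).mul (X5.cd_pd hl i))).neg.div_const _).sub (hv.mul (X5.cd_hs hl i j))).add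
    (((ht.mul (X5.cd_pd hl i)).mul (X5.cd_pd hl j)).div_const _)).add ?_
  exact (((ContDiffAt.sum fun k _ => (X5.cd_pd hl k).mul (X5.cd_pd hv k)).add
    (hv.mul (X5.Far.cd_lap hF.toFar hy))).sub (ht.div_const _)).mul contDiffAt_const

lemma FarD.decj (hF : X5.FarD C lam f V D R M) (hy : R < ‖y‖) :
    0 ≤ X5.ea lam (V0 V) (Vt V) y ∧ 0 ≤ X5.eb lam (V0 V) (Vt V) y ∧
      ∀ i, |X5.jj lam (V0 V) (Vt V) i y| ≤
        X5.ea lam (V0 V) (Vt V) y + X5.eb lam (V0 V) (Vt V) y :=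
  X5.dec_j (hF.sl y hy) (X5.Far.grad hF.toFar hy) (hF.smV y hy) (hF.dec y hy)

/-! ### assembly -/

theorem energy_lim_of [Fact (3 ≤ n)] (hS : IsSlice C lam V f D)
    (hF : X5.FarD C lam f V D R M) {e : ℝ}
    (hfl : Tendsto (fun r => Stmt.sphInt r fun y : E n =>
      ∑ i, X5.Fe lam (V0 V) i y * (y i / ‖y‖)) atTop (𝓝 e))
    (hmono : ∃ L0 : ℝ, ∀ s s', L0 ≤ s → s ≤ s' → SI (fun x => V (pt 0 (Y C.H x s)) * sg C.H s x) ≤
      SI (fun x => V (pt 0 (Y C.H x s')) * sg C.H s' x)) :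
    Tendsto (fun L => SI (fun x => V (pt 0 (Y C.H x L)) * sg C.H L x)) atTop (𝓝 (2 * e)) := by
  obtain ⟨L0, hL0⟩ := hmono
  have hR := hF.pos
  have hfar := far_of hS hR.le fun y hy => (hF.F y hy).le
  rw [← flux_eq_sphInt] at hfl
  have hd : ∀ y, R < ‖y‖ → 0 ≤ ∑ i, pd i (X5.Fe lam (V0 V) i) y := by
    intro y hy
    rw [X5.div_Fe (vt := Vt V) hF.toFar hy]
    obtain ⟨h1, h2, -⟩ := FarD.decj hF hy
    positivity
  set s0 := max L0 (max 1 (R + M + 1)) with hs0
  have hval : ∀ s, s0 ≤ s → lflux C.H (X5.Fe lam (V0 V)) s =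
      SI (fun x => V (pt 0 (Y C.H x s)) * sg C.H s x) / 2 := by
    intro s hs
    have h1 : (1:ℝ) ≤ s := ((le_max_left _ _).trans (le_max_right _ _)).trans hs
    have h2 : R + M + 1 ≤ s := ((le_max_right _ _).trans (le_max_right _ _)).trans hs
    exact lflux_Fe hS hF (by linarith) (by linarith)
  have hm : MonotoneOn (lflux C.H (X5.Fe lam (V0 V))) (Ici s0) := by
    intro s hs s' hs' hss
    rw [hval s hs, hval s' hs']
    have := hL0 s s' ((le_max_left _ _).trans hs) hss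
    linarith
  have h := Vale.Agent.P366.H707.N.lflux_lim hfar
    (fun i y hy => (cd_Fe hF i y hy).of_le (by exact_mod_cast le_top)) hd hfl hm
  have h2 := h.const_mul 2
  refine h2.congr' ?_
  filter_upwards [eventually_ge_atTop s0] with s hs
  rw [hval s hs]
  ring

theorem momentum_eq_of [Fact (3 ≤ n)] (hS : IsSlice C lam V f D)
    (hF : X5.FarD C lam f V D R M) {e p : ℝ} (i : Fin n)
    (hfl : Tendsto (fun r => Stmt.sphInt r fun y : E n =>
      ∑ i, X5.Fe lam (V0 V) i y * (y i / ‖y‖)) atTop (𝓝 e))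
    (hfp : Tendsto (fun r => Stmt.sphInt r fun y : E n =>
      ∑ j, X5.Pi lam (V0 V) (Vt V) i j y * (y j / ‖y‖)) atTop (𝓝 p))
    {q : ℝ} (hq : Tendsto (fun L => SI (fun x => V (pt 0 (Y C.H x L)) * sg C.H L x * x i)) atTop
      (𝓝 q)) : q = 2 * p := by
  have hR := hF.pos
  have hfar := far_of hS hR.le fun y hy => (hF.F y hy).le
  rw [← flux_eq_sphInt] at hfl
  rw [← flux_eq_sphInt (fun j => X5.Pi lam (V0 V) (Vt V) i j)] at hfp
  have hd : ∀ y, R < ‖y‖ → |∑ j, pd j (X5.Pi lam (V0 V) (Vt V) i j) y| ≤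
      2 * ∑ j, pd j (X5.Fe lam (V0 V) j) y := by
    intro y hy
    rw [X5.div_Fe (vt := Vt V) hF.toFar hy, X5.div_Pi hF.toFar hy]
    obtain ⟨h1, h2, h3⟩ := FarD.decj hF hy
    have := h3 i
    linarith
  have hav := Vale.Agent.P366.H707.N.av_lflux_lim' hfar
    (fun i y hy => (cd_Fe hF i y hy).of_le (by exact_mod_cast le_top))
    (fun j y hy => (cd_Pi hF i j y hy).of_le (by exact_mod_cast le_top)) hd two_pos hfl hfp
  set s0 := max 1 (R + M + 1) with hs0
  have hval : ∀ s, s0 ≤ s → lflux C.H (X5.Pi lam (V0 V) (Vt V) i) s =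
      SI (fun x => V (pt 0 (Y C.H x s)) * sg C.H s x * x i) / 2 := by
    intro s hs
    have h1 : (1:ℝ) ≤ s := (le_max_left _ _).trans hs
    have h2 : R + M + 1 ≤ s := (le_max_right _ _).trans hs
    exact lflux_Pi hS hF (by linarith) (by linarith) i
  have hlim : Tendsto (lflux C.H (X5.Pi lam (V0 V) (Vt V) i)) atTop (𝓝 (q / 2)) := by
    refine (hq.div_const 2).congr' ?_
    filter_upwards [eventually_ge_atTop s0] with s hs
    exact (hval s hs).symm
  have hint : ∀ c, s0 ≤ c → IntegrableOn (lflux C.H (X5.Pi lam (V0 V) (Vt V) i))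
      (Icc c (c + 1)) := by
    intro c hc
    have h1 : (1:ℝ) ≤ c := (le_max_left _ _).trans hc
    have h2 : R + M + 1 ≤ c := (le_max_right _ _).trans hc
    refine (lflux_cont C (by linarith) fun j x s hx hs => ?_).integrableOn_Icc
    exact (cd_Pi hF i j _ (hF.Yfar x s hx (by linarith)).2).continuousAt
  have hav2 := Vale.Agent.P366.H707.N.av_tendsto hint hlim
  have := tendsto_nhds_unique hav hav2
  linarith

end Vale.Agent.P366.KSN
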