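import Vale.Agent.P366.H707.N.Flux

/-! Limits of the fluxes through the level sets of `λ`. -/

open MeasureTheory Metric Filter Topology Set
open scoped ContDiff ENNReal

noncomputable section
namespace Vale.Agent.P366.H707.N

open Vale.Agent.P366 (sphI sphM pd E polar flux fderiv_eq_sum_pd)
open Vale.Agent.P366.H353.N (Sm Hom SI dtan hs pr)
open Vale.Agent.P366.T1 (T_deriv_nonneg T_deriv_zero T_deriv_one T_diff T_smooth)

/-- The average of `φ` over `[c, c + 1]` with the weight `T'`. -/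
def av (φ : ℝ → ℝ) (c : ℝ) : ℝ := ∫ r in Ioi (0:ℝ), deriv T1.T (r - c) * φ r

lemma rho_deriv (c r : ℝ) : HasDerivAt (fun r : ℝ => T1.T (r - c)) (deriv T1.T (r - c)) r := by
  have h := (T_diff (r - c)).hasDerivAt.comp r ((hasDerivAt_id r).sub_const c)
  exact h.congr_deriv (mul_one _)

lemma rho_lim (c : ℝ) : Tendsto (fun r : ℝ => T1.T (r - c)) atTop (𝓝 1) := by
  refine Tendsto.congr' ?_ tendsto_const_nhds
  filter_upwards [eventually_ge_atTop (c + 1)] with r hr
  exact (Real.smoothTransition.one_of_one_le (by linarith)).symm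

lemma rho_integrable (c : ℝ) : IntegrableOn (fun r : ℝ => deriv T1.T (r - c)) (Ioi 0) :=
  integrableOn_Ioi_deriv_of_nonneg' (fun r _ => rho_deriv c r) (fun _ _ => T_deriv_nonneg _)
    (rho_lim c)

lemma rho_int {c : ℝ} (hc : 0 ≤ c) : ∫ r in Ioi (0:ℝ), deriv T1.T (r - c) = 1 := by
  have h := integral_Ioi_of_hasDerivAt_of_nonneg' (a := (0:ℝ)) (fun r _ => rho_deriv c r)
    (fun _ _ => T_deriv_nonneg _) (rho_lim c)
  rw [h, show T1.T (0 - c) = 0 from Real.smoothTransition.zero_of_nonpos (by linarith), sub_zero]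

lemma rho_out {c r : ℝ} (h : r ∉ Icc c (c + 1)) : deriv T1.T (r - c) = 0 := by
  rw [mem_Icc, not_and_or, not_le, not_le] at h
  rcases h with h | h
  · exact T_deriv_zero (by linarith)
  · exact T_deriv_one (by linarith)

lemma av_integrable {φ : ℝ → ℝ} {c : ℝ} (hφ : IntegrableOn φ (Icc c (c + 1))) :
    IntegrableOn (fun r => deriv T1.T (r - c) * φ r) (Ioi 0) := by
  have hT'c : Continuous (deriv T1.T) := T1.T_smooth.continuous_deriv (by simp)
  have hcont : Continuous fun r : ℝ => deriv T1.T (r - c) :=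
    hT'c.comp (continuous_id.sub continuous_const)
  have h1 : IntegrableOn (fun r => deriv T1.T (r - c) * φ r) (Icc c (c + 1)) :=
    hφ.continuousOn_mul hcont.continuousOn isCompact_Icc
  have h2 : Integrable (fun r => deriv T1.T (r - c) * φ r) := by
    rw [← integrableOn_univ]
    refine h1.of_forall_sdiff_eq_zero MeasurableSet.univ fun r hr => ?_
    rw [rho_out hr.2, zero_mul]
  exact h2.integrableOn

lemma av_const {c : ℝ} (hc : 0 ≤ c) (M : ℝ) : ∫ r in Ioi (0:ℝ), deriv T1.T (r - c) * M = M := by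
  rw [integral_mul_const, rho_int hc, one_mul]

lemma av_le {φ : ℝ → ℝ} {c M : ℝ} (hc : 0 ≤ c) (hφ : IntegrableOn φ (Icc c (c + 1)))
    (h : ∀ r ∈ Icc c (c + 1), φ r ≤ M) : av φ c ≤ M := by
  unfold av
  rw [← av_const hc M]
  refine setIntegral_mono (av_integrable hφ) ((rho_integrable c).mul_const M) fun r => ?_
  by_cases hr : r ∈ Icc c (c + 1)
  · exact mul_le_mul_of_nonneg_left (h r hr) (T_deriv_nonneg _)
  · simp only [rho_out hr, zero_mul]; exact le_rfl

lemma le_av {φ : ℝ → ℝ} {c M : ℝ} (hc : 0 ≤ c) (hφ : IntegrableOn φ (Icc c (c + 1)))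
    (h : ∀ r ∈ Icc c (c + 1), M ≤ φ r) : M ≤ av φ c := by
  unfold av
  conv_lhs => rw [← av_const hc M]
  refine setIntegral_mono ((rho_integrable c).mul_const M) (av_integrable hφ) fun r => ?_
  by_cases hr : r ∈ Icc c (c + 1)
  · exact mul_le_mul_of_nonneg_left (h r hr) (T_deriv_nonneg _)
  · simp only [rho_out hr, zero_mul]; exact le_rfl

lemma av_tendsto {φ : ℝ → ℝ} {l s0 : ℝ} (hφ : ∀ c, s0 ≤ c → IntegrableOn φ (Icc c (c + 1)))
    (h : Tendsto φ atTop (𝓝 l)) : Tendsto (av φ) atTop (𝓝 l) := by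
  rw [Metric.tendsto_atTop] at h ⊢
  intro ε hε
  obtain ⟨N, hN⟩ := h (ε / 2) (by positivity)
  refine ⟨max (max N s0) 0, fun c hc => ?_⟩
  have h1 : N ≤ c := (le_max_left _ _).trans ((le_max_left _ _).trans hc)
  have h2 : s0 ≤ c := (le_max_right _ _).trans ((le_max_left _ _).trans hc)
  have h3 : 0 ≤ c := (le_max_right _ _).trans hc
  have h4 : ∀ r ∈ Icc c (c + 1), |φ r - l| < ε / 2 := fun r hr => hN r (h1.trans hr.1)
  have h5 := av_le h3 (hφ c h2) (M := l + ε / 2) fun r hr => by
    have := (abs_lt.mp (h4 r hr)).2; linarith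
  have h6 := le_av h3 (hφ c h2) (M := l - ε / 2) fun r hr => by
    have := (abs_lt.mp (h4 r hr)).1; linarith
  rw [Real.dist_eq, abs_lt]
  constructor <;> linarith

variable {n : ℕ} {H U lam : E n → ℝ} {R0 : ℝ}

/-- The flux of the field `F` through the level set of height `s` of `λ`. -/
def lflux (H : E n → ℝ) (F : Fin n → E n → ℝ) (s : ℝ) : ℝ :=
  SI (fun x => dW H s x * ∑ i, F i (Psi H (s • x)) * x i)

lemma flux_integrable [Fact (3 ≤ n)] {F : Fin n → E n → ℝ} (hR : 0 ≤ R0)
    (hF : ∀ i y, R0 < ‖y‖ → ContDiffAt ℝ 1 (F i) y) {c : ℝ} (hc : R0 + 1 ≤ c) :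
    IntegrableOn (flux F) (Icc c (c + 1)) := by
  refine ContinuousOn.integrableOn_Icc fun r hr => ?_
  have hr0 : R0 < r := by linarith [hr.1]
  have h1 : ∀ i, ContDiffOn ℝ 1 (F i) {x | R0 < ‖x‖} := fun i x hx =>
    (hF i x hx).contDiffWithinAt
  exact (Vale.Agent.P366.flux_hasDerivAt hR h1 hr0).continuousAt.continuousWithinAt

lemma psi_nonneg {M : ℝ} (hM : ∀ y, R0 < ‖y‖ → |lam y - ‖y‖| ≤ M) {L R : ℝ}
    (h : L + 1 + M ≤ R) (y : E n) : 0 ≤ psi lam R0 L R y := by
  unfold psi
  split_ifs with hy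
  · rcases le_or_gt ‖y‖ R with h1 | h1
    · rw [show T1.T (‖y‖ - R) = 0 from Real.smoothTransition.zero_of_nonpos (by linarith), sub_zero]
      exact Real.smoothTransition.nonneg _
    · have h2 := (abs_le.mp (hM y hy)).1
      rw [show T1.T (lam y - L) = 1 from Real.smoothTransition.one_of_one_le (by linarith)]
      have := Real.smoothTransition.le_one (‖y‖ - R)
      change 0 ≤ 1 - Real.smoothTransition (‖y‖ - R)
      linarith
  · exact le_rfl

lemma psi_nonpos {M : ℝ} (hM : ∀ y, R0 < ‖y‖ → |lam y - ‖y‖| ≤ M) {L R : ℝ}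
    (h : R + 1 + M ≤ L) (y : E n) : psi lam R0 L R y ≤ 0 := by
  unfold psi
  split_ifs with hy
  · rcases le_or_gt (lam y) L with h1 | h1
    · rw [show T1.T (lam y - L) = 0 from Real.smoothTransition.zero_of_nonpos (by linarith)]
      have := Real.smoothTransition.nonneg (‖y‖ - R)
      change 0 - Real.smoothTransition (‖y‖ - R) ≤ 0
      linarith
    · have h2 := (abs_le.mp (hM y hy)).2
      rw [show T1.T (‖y‖ - R) = 1 from Real.smoothTransition.one_of_one_le (by linarith)]
      have := Real.smoothTransition.le_one (lam y - L)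
      change Real.smoothTransition (lam y - L) - 1 ≤ 0
      linarith
  · exact le_rfl

lemma psi_near {y : E n} {L R : ℝ} (hy : ¬ R0 < ‖y‖) : psi lam R0 L R y = 0 := by
  unfold psi
  rw [if_neg hy]

/-- the averages of the flux through the level sets converge to the flux at infinity -/
theorem av_lflux_lim [Fact (3 ≤ n)] (h : Far H U lam R0) {F : Fin n → E n → ℝ}
    (hF : ∀ i y, R0 < ‖y‖ → ContDiffAt ℝ 1 (F i) y)
    (hd : ∀ y, R0 < ‖y‖ → 0 ≤ ∑ i, pd i (F i) y) {e : ℝ}
    (he : Tendsto (flux F) atTop (𝓝 e)) : Tendsto (av (lflux H F)) atTop (𝓝 e) := by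
  obtain ⟨M, hM0, hM, hcmp⟩ := flux_cmp h
  have hav := av_tendsto (fun c hc => flux_integrable h.nn hF hc) he
  have hup : Tendsto (fun L : ℝ => av (flux F) (L + (1 + M))) atTop (𝓝 e) :=
    hav.comp (tendsto_atTop_add_const_right atTop (1 + M) tendsto_id)
  have hlo : Tendsto (fun L : ℝ => av (flux F) (L + (-(1 + M)))) atTop (𝓝 e) :=
    hav.comp (tendsto_atTop_add_const_right atTop (-(1 + M)) tendsto_id)
  refine tendsto_of_tendsto_of_tendsto_of_le_of_le' hlo hup ?_ ?_
  · filter_upwards [eventually_ge_atTop (R0 + M + 1 + (1 + M) + 1)] with L hL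
    obtain ⟨h1, h2⟩ := hcmp F hF L (L + (-(1 + M))) (by linarith) (by linarith)
    have h3 : ∫ y, psi lam R0 L (L + (-(1 + M))) y * ∑ i, pd i (F i) y ≤ 0 := by
      refine integral_nonpos fun y => ?_
      by_cases hy : R0 < ‖y‖
      · exact mul_nonpos_of_nonpos_of_nonneg (psi_nonpos hM (by linarith) y) (hd y hy)
      · simp only [psi_near hy, zero_mul]; exact le_rfl
    rw [h2] at h3
    unfold av lflux
    linarith
  · filter_upwards [eventually_ge_atTop (R0 + M + 1 + (1 + M) + 1)] with L hL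
    obtain ⟨h1, h2⟩ := hcmp F hF L (L + (1 + M)) (by linarith) (by linarith)
    have h3 : 0 ≤ ∫ y, psi lam R0 L (L + (1 + M)) y * ∑ i, pd i (F i) y := by
      refine integral_nonneg fun y => ?_
      by_cases hy : R0 < ‖y‖
      · exact mul_nonneg (psi_nonneg hM (by linarith) y) (hd y hy)
      · simp only [psi_near hy, zero_mul]; exact le_rfl
    rw [h2] at h3
    unfold av lflux
    linarith

/-- the flux through the level sets converges to the flux at infinity -/
theorem lflux_lim [Fact (3 ≤ n)] (h : Far H U lam R0) {F : Fin n → E n → ℝ}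
    (hF : ∀ i y, R0 < ‖y‖ → ContDiffAt ℝ 1 (F i) y)
    (hd : ∀ y, R0 < ‖y‖ → 0 ≤ ∑ i, pd i (F i) y) {e : ℝ}
    (he : Tendsto (flux F) atTop (𝓝 e)) {s0 : ℝ} (hmono : MonotoneOn (lflux H F) (Ici s0)) :
    Tendsto (lflux H F) atTop (𝓝 e) := by
  have hav := av_lflux_lim h hF hd he
  have hint : ∀ c, s0 ≤ c → IntegrableOn (lflux H F) (Icc c (c + 1)) := fun c hc =>
    (hmono.mono fun r hr => hc.trans hr.1).integrableOn_isCompact isCompact_Icc
  have hlo : Tendsto (fun L : ℝ => av (lflux H F) (L + (-1))) atTop (𝓝 e) :=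
    hav.comp (tendsto_atTop_add_const_right atTop (-1) tendsto_id)
  refine tendsto_of_tendsto_of_tendsto_of_le_of_le' hlo hav ?_ ?_
  · filter_upwards [eventually_ge_atTop (max s0 0 + 1)] with L hL
    have h1 := le_max_left s0 0
    have h2 := le_max_right s0 0
    refine av_le (by linarith) (hint _ (by linarith)) fun r hr => ?_
    refine hmono ?_ ?_ ?_
    · show s0 ≤ r
      linarith [hr.1]
    · show s0 ≤ L
      linarith
    · linarith [hr.2]
  · filter_upwards [eventually_ge_atTop (max s0 0 + 1)] with L hL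
    have h1 := le_max_left s0 0
    have h2 := le_max_right s0 0
    refine le_av (by linarith) (hint _ (by linarith)) fun r hr => ?_
    refine hmono ?_ ?_ hr.1
    · show s0 ≤ L
      linarith
    · show s0 ≤ r
      linarith [hr.1]

/-- fluxes of fields whose divergence is controlled by that of a field with a flux at infinity -/
theorem av_lflux_lim' [Fact (3 ≤ n)] (h : Far H U lam R0) {F X : Fin n → E n → ℝ}
    (hF : ∀ i y, R0 < ‖y‖ → ContDiffAt ℝ 1 (F i) y)
    (hX : ∀ i y, R0 < ‖y‖ → ContDiffAt ℝ 1 (X i) y) {C : ℝ}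
    (hd : ∀ y, R0 < ‖y‖ → |∑ i, pd i (X i) y| ≤ C * ∑ i, pd i (F i) y) (hC : 0 < C) {e p : ℝ}
    (he : Tendsto (flux F) atTop (𝓝 e)) (hp : Tendsto (flux X) atTop (𝓝 p)) :
    Tendsto (av (lflux H X)) atTop (𝓝 p) := by
  have hd0 : ∀ y, R0 < ‖y‖ → 0 ≤ ∑ i, pd i (F i) y := fun y hy =>
    nonneg_of_mul_nonneg_right ((abs_nonneg _).trans (hd y hy)) hC
  have hL := av_lflux_lim h hF hd0 he
  obtain ⟨M, hM0, hM, hcmp⟩ := flux_cmp h
  have havF := av_tendsto (fun c hc => flux_integrable h.nn hF hc) he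
  have havX := av_tendsto (fun c hc => flux_integrable h.nn hX hc) hp
  have hupF : Tendsto (fun L : ℝ => av (flux F) (L + (1 + M))) atTop (𝓝 e) :=
    havF.comp (tendsto_atTop_add_const_right atTop (1 + M) tendsto_id)
  have hupX : Tendsto (fun L : ℝ => av (flux X) (L + (1 + M))) atTop (𝓝 p) :=
    havX.comp (tendsto_atTop_add_const_right atTop (1 + M) tendsto_id)
  have hdiff : Tendsto (fun L : ℝ => C * (av (flux F) (L + (1 + M)) - av (lflux H F) L)) atTop
      (𝓝 0) := by
    have := (hupF.sub hL).const_mul C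
    simpa using this
  have hbound : ∀ᶠ L : ℝ in atTop, |av (flux X) (L + (1 + M)) - av (lflux H X) L| ≤
      C * (av (flux F) (L + (1 + M)) - av (lflux H F) L) := by
    filter_upwards [eventually_ge_atTop (R0 + M + 1 + (1 + M) + 1)] with L hL
    obtain ⟨h1, h2⟩ := hcmp F hF L (L + (1 + M)) (by linarith) (by linarith)
    obtain ⟨h3, h4⟩ := hcmp X hX L (L + (1 + M)) (by linarith) (by linarith)
    have h5 : |∫ y, psi lam R0 L (L + (1 + M)) y * ∑ i, pd i (X i) y| ≤
        C * ∫ y, psi lam R0 L (L + (1 + M)) y * ∑ i, pd i (F i) y := by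
      rw [← integral_const_mul]
      refine (abs_integral_le_integral_abs).trans ?_
      refine integral_mono h3.abs (h1.const_mul C) fun y => ?_
      by_cases hy : R0 < ‖y‖
      · have hψ := psi_nonneg hM (show L + 1 + M ≤ L + (1 + M) by linarith) y
        simp only [abs_mul, abs_of_nonneg hψ]
        calc psi lam R0 L (L + (1 + M)) y * |∑ i, pd i (X i) y|
            ≤ psi lam R0 L (L + (1 + M)) y * (C * ∑ i, pd i (F i) y) :=
              mul_le_mul_of_nonneg_left (hd y hy) hψ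
          _ = _ := by ring
      · simp only [psi_near hy, zero_mul, abs_zero, mul_zero]; exact le_rfl
    rw [h2, h4] at h5
    exact h5
  have hz : Tendsto (fun L : ℝ => av (flux X) (L + (1 + M)) - av (lflux H X) L) atTop (𝓝 0) :=
    squeeze_zero_norm' hbound hdiff
  have := hupX.sub hz
  simpa using this

end Vale.Agent.P366.H707.N
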