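import Vale.Agent.P366.H707.N.Avg

/-! The divergence theorem with a cutoff near a compact inner boundary. -/

open MeasureTheory Metric Filter Topology Set
open scoped ContDiff ENNReal

noncomputable section
namespace Vale.Agent.P366.H707.N

open Vale.Agent.P366 (sphI sphM pd E polar flux fderiv_eq_sum_pd)
open Vale.Agent.P366.H353.N (Sm Hom SI dtan hs pr)
open Vale.Agent.P366.T1 (T_deriv_nonneg T_deriv_zero T_deriv_one T_diff T_smooth)

variable {n : ℕ}

lemma cR_smooth {R : ℝ} (hR : 0 < R) (y : E n) :
    ContDiffAt ℝ ∞ (fun y : E n => T1.T (‖y‖ - R)) y := by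
  by_cases hy : y = 0
  · refine (contDiffAt_const (c := (0:ℝ))).congr_of_eventuallyEq ?_
    have h : ∀ᶠ z in 𝓝 y, ‖z‖ < R := by
      refine (isOpen_lt continuous_norm continuous_const).mem_nhds ?_
      show ‖y‖ < R
      rw [hy, norm_zero]; exact hR
    filter_upwards [h] with z hz
    exact Real.smoothTransition.zero_of_nonpos (by linarith)
  · exact T_smooth.contDiffAt.comp y ((contDiffAt_norm ℝ hy).sub contDiffAt_const)

lemma cR_pd {R : ℝ} (hR : 0 < R) (y : E n) (i : Fin n) :
    pd i (fun y : E n => T1.T (‖y‖ - R)) y = deriv T1.T (‖y‖ - R) * (y i / ‖y‖) := by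
  by_cases hy : y = 0
  · have h : ∀ᶠ z in 𝓝 y, ‖z‖ < R := by
      refine (isOpen_lt continuous_norm continuous_const).mem_nhds ?_
      show ‖y‖ < R
      rw [hy, norm_zero]; exact hR
    have h1 : (fun y : E n => T1.T (‖y‖ - R)) =ᶠ[𝓝 y] fun _ => 0 := by
      filter_upwards [h] with z hz
      exact Real.smoothTransition.zero_of_nonpos (by linarith)
    rw [Vale.Agent.P366.pd_congr h1 i, Vale.Agent.P366.pd_const]
    rw [T_deriv_zero (by rw [hy, norm_zero]; linarith), zero_mul]
  · have hnd : DifferentiableAt ℝ (fun y : E n => ‖y‖) y :=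
      (contDiffAt_norm ℝ hy (n := 1)).differentiableAt (by simp)
    rw [pd_T hnd, H353.N.pd_norm' hy]

open Classical in
/-- The cutoff: one between the inner boundary of `O` and the sphere of radius about `R`. -/
def cutO (O : Set (E n)) (v : E n → ℝ) (R : ℝ) (y : E n) : ℝ :=
  if y ∈ O then T1.T (v y) - T1.T (‖y‖ - R) else 0

/-- The divergence theorem with cutoffs. -/
theorem cut_gen [Fact (3 ≤ n)] {O N : Set (E n)} (hOo : IsOpen O) (hNo : IsOpen N)
    (hcov : ∀ y, y ∈ O ∨ y ∈ N) {v : E n → ℝ} (hv : ∀ y ∈ O, ContDiffAt ℝ ∞ v y) {R R2 : ℝ}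
    (hR : 0 < R) (hzv : ∀ y ∈ N, y ∈ O → v y ≤ 0) (hzR : ∀ y ∈ N, ‖y‖ ≤ R)
    (hfar : ∀ y, R2 < ‖y‖ → y ∈ O ∧ 1 ≤ v y ∧ R + 1 ≤ ‖y‖) {F : Fin n → E n → ℝ}
    (hF : ∀ i, ∀ y ∈ O, ContDiffAt ℝ 1 (F i) y) :
    Integrable (fun y => cutO O v R y * ∑ i, pd i (F i) y) ∧
    Integrable (O.indicator fun y => deriv T1.T (v y) * ∑ i, pd i v y * F i y) ∧
    ∫ y, cutO O v R y * ∑ i, pd i (F i) y =
      (∫ r in Ioi (0:ℝ), deriv T1.T (r - R) * flux F r) -
      ∫ y, O.indicator (fun y => deriv T1.T (v y) * ∑ i, pd i v y * F i y) y := by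
  have hlc : ∀ y ∈ O, ContinuousAt v y := fun y hy => (hv y hy).continuousAt
  have hTc : Continuous T1.T := T_smooth.continuous
  have hT'c : Continuous (deriv T1.T) := T1.T_smooth.continuous_deriv (by simp)
  have hpsiN : ∀ y ∈ N, cutO O v R y = 0 := by
    intro y hy
    unfold cutO
    split_ifs with hyO
    · have h1 : T1.T (v y) = 0 := Real.smoothTransition.zero_of_nonpos (hzv y hy hyO)
      have h2 : T1.T (‖y‖ - R) = 0 :=
        Real.smoothTransition.zero_of_nonpos (by linarith [hzR y hy])
      rw [h1, h2, sub_zero]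
    · rfl
  have hpsiR : ∀ y, R2 < ‖y‖ → cutO O v R y = 0 := by
    intro y hy
    obtain ⟨h3, h4, h5⟩ := hfar y hy
    unfold cutO
    rw [if_pos h3]
    have h5 : T1.T (v y) = 1 := Real.smoothTransition.one_of_one_le h4
    have h6 : T1.T (‖y‖ - R) = 1 := Real.smoothTransition.one_of_one_le (by linarith)
    rw [h5, h6, sub_self]
  have hcs : ∀ g : E n → ℝ, (∀ x, R2 < ‖x‖ → g x = 0) → HasCompactSupport g := by
    intro g hg
    refine HasCompactSupport.intro (isCompact_closedBall (0 : E n) R2) fun x hx => hg x ?_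
    simpa using hx
  have hglue : ∀ g : E n → ℝ, (∀ y ∈ O, ContinuousAt g y) → (∀ y ∈ N, g y = 0) → Continuous g := by
    intro g h1 h2
    rw [continuous_iff_continuousAt]
    intro y
    rcases hcov y with hy | hy
    · exact h1 y hy
    · refine (continuousAt_const (y := (0:ℝ))).congr ?_
      filter_upwards [hNo.mem_nhds hy] with z hz
      exact (h2 z hz).symm
  have hpsiO : ∀ y ∈ O, cutO O v R =ᶠ[𝓝 y] fun y => T1.T (v y) - T1.T (‖y‖ - R) := by
    intro y hy
    filter_upwards [hOo.mem_nhds hy] with z hz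
    unfold cutO
    rw [if_pos hz]
  have hTv : ∀ y ∈ O, ContDiffAt ℝ ∞ (fun y => T1.T (v y)) y := fun y hy =>
    T_smooth.contDiffAt.comp y (hv y hy)
  have hpsiS : ∀ y ∈ O, ContDiffAt ℝ ∞ (cutO O v R) y := by
    intro y hy
    refine ContDiffAt.congr_of_eventuallyEq ?_ (hpsiO y hy)
    exact (hTv y hy).sub (cR_smooth hR y)
  have hpdv : ∀ y ∈ O, ∀ i, pd i (fun y => T1.T (v y)) y = deriv T1.T (v y) * pd i v y := by
    intro y hy i
    have h := pd_T ((hv y hy).differentiableAt (by simp)) 0 i
    simpa using h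
  have hpdpsi : ∀ y ∈ O, ∀ i, pd i (cutO O v R) y =
      deriv T1.T (v y) * pd i v y - deriv T1.T (‖y‖ - R) * (y i / ‖y‖) := by
    intro y hy i
    rw [Vale.Agent.P366.pd_congr (hpsiO y hy) i]
    rw [Vale.Agent.P366.pd_sub ((hTv y hy).differentiableAt (by simp))
      ((cR_smooth hR y).differentiableAt (by simp)), hpdv y hy, cR_pd hR]
  -- the compactly supported field
  have hZ : ∀ i, ContDiff ℝ 1 fun y => cutO O v R y * F i y := by
    intro i
    rw [contDiff_iff_contDiffAt]
    intro y
    rcases hcov y with hy | hy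
    · exact ((hpsiS y hy).of_le (by simp)).mul (hF i y hy)
    · refine (contDiffAt_const (c := (0:ℝ))).congr_of_eventuallyEq ?_
      filter_upwards [hNo.mem_nhds hy] with z hz
      rw [hpsiN z hz, zero_mul]
  have hZc : ∀ i, HasCompactSupport fun y => cutO O v R y * F i y :=
    fun i => hcs _ fun x hx => by rw [hpsiR x hx, zero_mul]
  have hFpd : ∀ i, ∀ y ∈ O, ContinuousAt (pd i (F i)) y := by
    intro i y hy
    have h1 : ContDiffAt ℝ 0 (fderiv ℝ (F i)) y := (hF i y hy).fderiv_right (by simp)
    exact (h1.clm_apply (contDiffAt_const (c := EuclideanSpace.single i (1:ℝ)))).continuousAt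
  have hFc : ∀ i, ∀ y ∈ O, ContinuousAt (F i) y := fun i y hy => (hF i y hy).continuousAt
  have hlpd : ∀ i, ∀ y ∈ O, ContinuousAt (pd i v) y := by
    intro i y hy
    have h1 : ContDiffAt ℝ 0 (fderiv ℝ v) y := (hv y hy).fderiv_right (by simp)
    exact (h1.clm_apply (contDiffAt_const (c := EuclideanSpace.single i (1:ℝ)))).continuousAt
  -- the three integrands
  set a : E n → ℝ := fun y => cutO O v R y * ∑ i, pd i (F i) y with ha
  set b1 : E n → ℝ := O.indicator fun y => deriv T1.T (v y) * ∑ i, pd i v y * F i y with hb1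
  set b2 : E n → ℝ := O.indicator fun y => deriv T1.T (‖y‖ - R) * ∑ i, F i y * (y i / ‖y‖)
    with hb2
  have hindO : ∀ y ∈ O, ∀ g : E n → ℝ, O.indicator g =ᶠ[𝓝 y] g := by
    intro y hy g
    filter_upwards [hOo.mem_nhds hy] with z hz
    exact indicator_of_mem hz _
  have hac : Continuous a := by
    refine hglue a (fun y hy => ?_) fun y hy => by simp only [ha, hpsiN y hy, zero_mul]
    exact (hpsiS y hy).continuousAt.mul (tendsto_finsetSum _ fun i _ => hFpd i y hy)
  have hai : Integrable a := hac.integrable_of_hasCompactSupport (hcs _ fun x hx => by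
    simp only [ha, hpsiR x hx, zero_mul])
  have hb1c : Continuous b1 := by
    refine hglue b1 (fun y hy => ?_) fun y hy => ?_
    · refine ContinuousAt.congr ?_ (hindO y hy _).symm
      refine (hT'c.continuousAt.comp (hlc y hy)).mul ?_
      exact tendsto_finsetSum _ fun i _ => (hlpd i y hy).mul (hFc i y hy)
    · by_cases hyO : y ∈ O
      · simp only [hb1, indicator_of_mem hyO]
        rw [T_deriv_zero (hzv y hy hyO), zero_mul]
      · simp only [hb1, indicator_of_notMem hyO]
  have hb1i : Integrable b1 := hb1c.integrable_of_hasCompactSupport (hcs _ fun x hx => by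
    obtain ⟨h3, h4, h5⟩ := hfar x hx
    simp only [hb1, indicator_of_mem h3]
    rw [T_deriv_one h4, zero_mul])
  have hb2c : Continuous b2 := by
    refine hglue b2 (fun y hy => ?_) fun y hy => ?_
    · refine ContinuousAt.congr ?_ (hindO y hy _).symm
      have e : (fun y => deriv T1.T (‖y‖ - R) * ∑ i, F i y * (y i / ‖y‖)) =
          fun y => ∑ i, F i y * (deriv T1.T (‖y‖ - R) * (y i / ‖y‖)) := by
        funext y
        rw [Finset.mul_sum]
        exact Finset.sum_congr rfl fun i _ => by ring
      rw [e]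
      refine tendsto_finsetSum _ fun i _ => (hFc i y hy).mul ?_
      have h1 : (fun y : E n => deriv T1.T (‖y‖ - R) * (y i / ‖y‖)) =
          pd i (fun y : E n => T1.T (‖y‖ - R)) := funext fun y => (cR_pd hR y i).symm
      rw [h1]
      have h2 : ContDiffAt ℝ 0 (fderiv ℝ (fun y : E n => T1.T (‖y‖ - R))) y :=
        (cR_smooth hR y).fderiv_right (by simp)
      exact (h2.clm_apply (contDiffAt_const (c := EuclideanSpace.single i (1:ℝ)))).continuousAt
    · by_cases hyO : y ∈ O
      · simp only [hb2, indicator_of_mem hyO]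
        rw [T_deriv_zero (by linarith [hzR y hy]), zero_mul]
      · simp only [hb2, indicator_of_notMem hyO]
  have hb2i : Integrable b2 := hb2c.integrable_of_hasCompactSupport (hcs _ fun x hx => by
    obtain ⟨h3, h4, h5⟩ := hfar x hx
    simp only [hb2, indicator_of_mem h3]
    rw [T_deriv_one (by linarith), zero_mul])
  have hsum : ∀ y, a y + (b1 y - b2 y) = ∑ i, Stmt.pd i (fun y => cutO O v R y * F i y) y := by
    intro y
    have e0 : ∀ i, Stmt.pd i (fun y => cutO O v R y * F i y) y =
        pd i (fun y => cutO O v R y * F i y) y := fun i =>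
      T1.pd_fderiv (((hZ i).differentiable (by simp)) y) i
    simp only [e0]
    rcases hcov y with hy | hy
    · have hpd : DifferentiableAt ℝ (cutO O v R) y := (hpsiS y hy).differentiableAt (by simp)
      have e : ∀ i, pd i (fun y => cutO O v R y * F i y) y =
          cutO O v R y * pd i (F i) y + deriv T1.T (v y) * (pd i v y * F i y) -
          deriv T1.T (‖y‖ - R) * (F i y * (y i / ‖y‖)) := by
        intro i
        rw [Vale.Agent.P366.pd_mul hpd ((hF i y hy).differentiableAt (by simp)), hpdpsi y hy]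
        ring
      simp only [e, Finset.sum_add_distrib, Finset.sum_sub_distrib, ← Finset.mul_sum, ha, hb1, hb2,
        indicator_of_mem hy]
      ring
    · have e : ∀ i, pd i (fun y => cutO O v R y * F i y) y = 0 := by
        intro i
        have h1 : (fun y => cutO O v R y * F i y) =ᶠ[𝓝 y] fun _ => 0 := by
          filter_upwards [hNo.mem_nhds hy] with z hz
          rw [hpsiN z hz, zero_mul]
        rw [Vale.Agent.P366.pd_congr h1 i, Vale.Agent.P366.pd_const]
      have e1 : b1 y = 0 := by
        by_cases hyO : y ∈ O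
        · simp only [hb1, indicator_of_mem hyO]
          rw [T_deriv_zero (hzv y hy hyO), zero_mul]
        · simp only [hb1, indicator_of_notMem hyO]
      have e2 : b2 y = 0 := by
        by_cases hyO : y ∈ O
        · simp only [hb2, indicator_of_mem hyO]
          rw [T_deriv_zero (by linarith [hzR y hy]), zero_mul]
        · simp only [hb2, indicator_of_notMem hyO]
      have e3 : a y = 0 := by simp only [ha, hpsiN y hy, zero_mul]
      simp only [e, e1, e2, e3, Finset.sum_const_zero]
      ring
  have h0 : ∫ y, (a y + (b1 y - b2 y)) = 0 := by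
    simp only [hsum]
    rw [integral_finsetSum]
    · exact Finset.sum_eq_zero fun i _ => T1.integral_pd_eq_zero (hZ i) (hZc i) i
    · intro i _
      have h2 : Stmt.pd i (fun y => cutO O v R y * F i y) =
          fun x => fderiv ℝ (fun y => cutO O v R y * F i y) x (EuclideanSpace.single i 1) :=
        funext fun x => T1.pd_fderiv (((hZ i).differentiable (by simp)) x) i
      rw [h2]
      exact (((hZ i).continuous_fderiv (by simp)).clm_apply
        continuous_const).integrable_of_hasCompactSupport ((hZc i).fderiv_apply (𝕜 := ℝ) _)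
  have e1 : (∫ y, (a y + (b1 y - b2 y))) = (∫ y, a y) + (∫ y, (b1 y - b2 y)) :=
    integral_add hai (hb1i.sub hb2i)
  have e2 : (∫ y, (b1 y - b2 y)) = (∫ y, b1 y) - (∫ y, b2 y) := integral_sub hb1i hb2i
  rw [e1, e2] at h0
  refine ⟨hai, hb1i, ?_⟩
  -- the flux through the spheres
  have hB2 : ∫ y, b2 y = ∫ r in Ioi (0:ℝ), deriv T1.T (r - R) * flux F r := by
    rw [polar b2 hb2i]
    refine setIntegral_congr_fun measurableSet_Ioi fun r hr => ?_
    have hr : 0 < r := hr
    unfold flux
    have e : sphI b2 r = deriv T1.T (r - R) * sphI (fun x => ∑ i, F i x * (x i / ‖x‖)) r := by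
      unfold sphI
      rw [← integral_const_mul]
      refine integral_congr_ae (Eventually.of_forall fun θ => ?_)
      have hnr := Vale.Agent.P366.norm_smul_sph hr.le θ
      simp only [hb2]
      rcases hcov (r • (θ : E n)) with hy | hy
      · rw [indicator_of_mem hy, hnr]
      · have h1 := hzR _ hy
        rw [hnr] at h1
        rw [T_deriv_zero (show r - R ≤ 0 by linarith), zero_mul]
        by_cases hyO : r • (θ : E n) ∈ O
        · rw [indicator_of_mem hyO, hnr, T_deriv_zero (show r - R ≤ 0 by linarith), zero_mul]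
        · rw [indicator_of_notMem hyO]
    rw [e]; ring
  rw [← hB2]
  linarith

end Vale.Agent.P366.H707.N
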