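import Vale.Agent.P366.H707.N.X6

/-! Fluxes through coordinate spheres and through the level sets of `λ`. -/

open MeasureTheory Metric Filter Topology Set
open scoped ContDiff ENNReal

noncomputable section
namespace Vale.Agent.P366.H707.N

open Vale.Agent.P366 (sphI sphM pd E polar flux fderiv_eq_sum_pd)
open Vale.Agent.P366.H353.N (Sm Hom SI dtan hs pr)
open Vale.Agent.P366.T1 (T_deriv_nonneg T_deriv_zero T_deriv_one T_diff T_smooth)

variable {n : ℕ} {H U lam : E n → ℝ} {R0 : ℝ}

/-- The region `R0 < ‖y‖` is covered by the rays `y = Psi H x`; there `λ (Psi H x) = ‖x‖`. -/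
structure Far (H U lam : E n → ℝ) (R0 : ℝ) : Prop where
  smH : Sm H
  h1 : Hom 1 H
  smU : Sm U
  h0 : Hom 0 U
  inj : InjOn (Psi H) (Par U)
  cov : ∀ y, R0 < ‖y‖ → y ∈ Psi H '' Par U
  eq : ∀ x ∈ Par U, lam (Psi H x) = ‖x‖
  sm : ∀ y, R0 < ‖y‖ → ContDiffAt ℝ ∞ lam y
  gr : ∀ x ∈ Par U, ∀ i, pd i lam (Psi H x) = x i / ‖x‖
  nn : 0 ≤ R0
  det : ∀ x ∈ Par U, 0 ≤ dW H ‖x‖ (‖x‖⁻¹ • x)

lemma grad_bound2 (hH : Sm H) (h1 : Hom 1 H) :
    ∃ M : ℝ, ∀ x : E n, x ≠ 0 → ‖Psi H x - x‖ ≤ M := by
  have hc : ContinuousOn (fun x : E n => Psi H x - x) (sphere 0 1) := by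
    intro x hx
    have hx0 : x ≠ 0 := ne0 (by simpa using hx)
    exact ((Psi_diff hH hx0).continuousAt.sub continuousAt_id).continuousWithinAt
  obtain ⟨M, hM⟩ := (isCompact_sphere (0 : E n) 1).exists_bound_of_continuousOn hc
  refine ⟨M, fun x hx => ?_⟩
  have hn := norm_pos_iff.mpr hx
  have hu := norm_unit hn
  have h2 := hM (‖x‖⁻¹ • x) (by simpa using hu)
  have e : Psi H (‖x‖⁻¹ • x) - ‖x‖⁻¹ • x = Psi H x - x := by
    ext i
    have h3 := Hom.pd hH h1 i x hx ‖x‖⁻¹ (inv_pos.mpr hn)
    simp only [sub_self, zpow_zero, one_mul] at h3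
    change (pd i H (‖x‖⁻¹ • x) + (‖x‖⁻¹ • x) i) - (‖x‖⁻¹ • x) i = (pd i H x + x i) - x i
    rw [h3]; ring
  rwa [e] at h2

lemma U_bound [Fact (3 ≤ n)] (hU : Sm U) (h0 : Hom 0 U) : ∃ B : ℝ, ∀ x : E n, x ≠ 0 → U x ≤ B := by
  obtain ⟨B, hB⟩ := (isCompact_sphere (0 : E n) 1).exists_bound_of_continuousOn hU.contOn
  refine ⟨B, fun x hx => ?_⟩
  have hn := norm_pos_iff.mpr hx
  have h2 := hB (‖x‖⁻¹ • x) (by simpa using norm_unit hn)
  have h3 : U (‖x‖⁻¹ • x) = U x := by
    rw [h0 x hx _ (inv_pos.mpr hn)]; simp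
  rw [h3] at h2
  exact (le_abs_self _).trans h2

/-- the change of variables -/
lemma cov_int [Fact (3 ≤ n)] (h : Far H U lam R0) {k : E n → ℝ} (hk : Integrable k)
    (hk0 : ∀ y, y ∉ Psi H '' Par U → k y = 0) :
    ∫ y, k y = ∫ s in Ioi (0:ℝ), SI (fun x => (Par U).indicator
      (fun z => dW H ‖z‖ (‖z‖⁻¹ • z) * k (Psi H z)) (s • x)) := by
  have hPm := Par_meas h.smU
  have hfd : ∀ x ∈ Par U, HasFDerivWithinAt (Psi H) (fderiv ℝ (Psi H) x) (Par U) x := fun x hx =>
    (Psi_diff h.smH hx.1).hasFDerivAt.hasFDerivWithinAt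
  have e1 : ∫ y, k y = ∫ y in Psi H '' Par U, k y :=
    (setIntegral_eq_integral_of_forall_compl_eq_zero fun y hy => hk0 y hy).symm
  have hi := (integrableOn_image_iff_integrableOn_abs_det_fderiv_smul volume hPm hfd h.inj k).mp
    hk.integrableOn
  rw [e1, integral_image_eq_integral_abs_det_fderiv_smul volume hPm hfd h.inj,
    ← integral_indicator hPm]
  rw [polar _ ((integrable_indicator_iff hPm).mpr hi)]
  refine setIntegral_congr_fun measurableSet_Ioi fun s hs => ?_
  have hs : 0 < s := hs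
  unfold sphI SI
  rw [← integral_const_mul]
  refine integral_congr_ae (Eventually.of_forall fun θ => ?_)
  have hθ : ‖(θ : E n)‖ = 1 := norm_eq_of_mem_sphere θ
  have hn : ‖s • (θ : E n)‖ = s := by
    rw [norm_smul, hθ, Real.norm_eq_abs, abs_of_pos hs, mul_one]
  simp only
  by_cases hm : s • (θ : E n) ∈ Par U
  · rw [indicator_of_mem hm, indicator_of_mem hm]
    have hd := h.det _ hm
    rw [hn, inv_smul_smul₀ hs.ne'] at hd ⊢
    rw [det_DPsi h.smH h.h1 hθ hs, abs_div, abs_of_nonneg hd, abs_of_nonneg (by positivity),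
      smul_eq_mul]
    have : s ^ (n - 1) ≠ 0 := pow_ne_zero _ hs.ne'
    field_simp
  · rw [indicator_of_notMem hm, indicator_of_notMem hm, mul_zero]

lemma pd_T {g : E n → ℝ} {y : E n} (hg : DifferentiableAt ℝ g y) (c : ℝ) (i : Fin n) :
    pd i (fun y => T1.T (g y - c)) y = deriv T1.T (g y - c) * pd i g y := by
  have h1 : HasFDerivAt (fun y => T1.T (g y - c)) (deriv T1.T (g y - c) • fderiv ℝ g y) y :=
    (T_diff _).hasDerivAt.comp_hasFDerivAt y (hg.hasFDerivAt.sub_const c)
  unfold pd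
  rw [h1.fderiv]
  simp

open Classical in
/-- The cutoff between the sphere of radius about `R` and the level set of `λ` of height about
`L`. -/
def psi (lam : E n → ℝ) (R0 L R : ℝ) (y : E n) : ℝ :=
  if R0 < ‖y‖ then T1.T (lam y - L) - T1.T (‖y‖ - R) else 0

/-- Comparison of the fluxes. -/
theorem flux_cmp [Fact (3 ≤ n)] (h : Far H U lam R0) : ∃ M : ℝ, 0 ≤ M ∧
    (∀ y, R0 < ‖y‖ → |lam y - ‖y‖| ≤ M) ∧
    ∀ (F : Fin n → E n → ℝ), (∀ i y, R0 < ‖y‖ → ContDiffAt ℝ 1 (F i) y) → ∀ L R : ℝ,
    R0 + M + 1 ≤ L → R0 + 1 ≤ R →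
    Integrable (fun y => psi lam R0 L R y * ∑ i, pd i (F i) y) ∧
    ∫ y, psi lam R0 L R y * ∑ i, pd i (F i) y =
      (∫ r in Ioi (0:ℝ), deriv T1.T (r - R) * flux F r) -
      ∫ s in Ioi (0:ℝ), deriv T1.T (s - L) *
        SI (fun x => dW H s x * ∑ i, F i (Psi H (s • x)) * x i) := by
  obtain ⟨M1, hM1⟩ := grad_bound2 h.smH h.h1
  obtain ⟨B, hB⟩ := U_bound h.smU h.h0
  obtain ⟨M, hM0, hMM, hMB⟩ : ∃ M : ℝ, 0 ≤ M ∧ M1 ≤ M ∧ B ≤ M :=
    ⟨max 0 (max M1 B), le_max_left _ _, (le_max_left _ _).trans (le_max_right _ _),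
      (le_max_right _ _).trans (le_max_right _ _)⟩
  have hlm : ∀ y, R0 < ‖y‖ → |lam y - ‖y‖| ≤ M := by
    intro y hy
    obtain ⟨x, hx, rfl⟩ := h.cov y hy
    rw [h.eq x hx]
    have h2 := hM1 x hx.1
    have h3 := abs_norm_sub_norm_le x (Psi H x)
    rw [norm_sub_rev] at h3
    exact h3.trans (h2.trans hMM)
  refine ⟨M, hM0, hlm, fun F hF L R hL hR => ?_⟩
  have hR0 := h.nn
  set O : Set (E n) := {y | R0 < ‖y‖} with hO
  have hOo : IsOpen O := isOpen_lt continuous_const continuous_norm
  set N : Set (E n) := {y | ‖y‖ < R0 + 1} with hN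
  have hNo : IsOpen N := isOpen_lt continuous_norm continuous_const
  have hcov : ∀ y, y ∈ O ∨ y ∈ N := fun y => by
    rcases lt_or_ge R0 ‖y‖ with h | h
    · exact Or.inl h
    · exact Or.inr (show ‖y‖ < R0 + 1 by linarith)
  have hlc : ∀ y ∈ O, ContinuousAt lam y := fun y hy => (h.sm y hy).continuousAt
  have hTc : Continuous T1.T := T_smooth.continuous
  have hT'c : Continuous (deriv T1.T) := T1.T_smooth.continuous_deriv (by simp)
  have hne : ∀ y ∈ O, y ≠ 0 := by
    rintro y hy rfl
    have hy : R0 < ‖(0 : E n)‖ := hy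
    rw [norm_zero] at hy
    linarith
  -- zero sets
  have hzL : ∀ y ∈ N, y ∈ O → lam y - L ≤ 0 := by
    intro y hy hyO
    have h1 := (abs_le.mp (hlm y hyO)).2
    have h2 : ‖y‖ < R0 + 1 := hy
    linarith
  have hzR : ∀ y ∈ N, ‖y‖ - R ≤ 0 := by
    intro y hy
    have h2 : ‖y‖ < R0 + 1 := hy
    linarith
  have hpsiN : ∀ y ∈ N, psi lam R0 L R y = 0 := by
    intro y hy
    unfold psi
    split_ifs with hyO
    · have h1 : T1.T (lam y - L) = 0 := Real.smoothTransition.zero_of_nonpos (hzL y hy hyO)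
      have h2 : T1.T (‖y‖ - R) = 0 := Real.smoothTransition.zero_of_nonpos (hzR y hy)
      rw [h1, h2, sub_zero]
    · rfl
  set R2 := max (R + 1) (L + 1 + M) with hR2
  have hpsiR : ∀ y, R2 < ‖y‖ → psi lam R0 L R y = 0 := by
    intro y hy
    have h1 : R + 1 < ‖y‖ := (le_max_left _ _).trans_lt hy
    have h2 : L + 1 + M < ‖y‖ := (le_max_right _ _).trans_lt hy
    have h3 : R0 < ‖y‖ := by linarith
    unfold psi
    rw [if_pos h3]
    have h4 := (abs_le.mp (hlm y h3)).1
    have h5 : T1.T (lam y - L) = 1 := Real.smoothTransition.one_of_one_le (by linarith)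
    have h6 : T1.T (‖y‖ - R) = 1 := Real.smoothTransition.one_of_one_le (by linarith)
    rw [h5, h6, sub_self]
  have hcs : ∀ g : E n → ℝ, (∀ x, R2 < ‖x‖ → g x = 0) → HasCompactSupport g := by
    intro g hg
    refine HasCompactSupport.intro (isCompact_closedBall (0 : E n) R2) fun x hx => hg x ?_
    simpa using hx
  have hglue : ∀ g : E n → ℝ, (∀ y ∈ O, ContinuousAt g y) → (∀ y ∈ N, g y = 0) → Continuous g := by
    intro g h1 h2
    rw [continuous_iff_continuousAt]
    intro y
    rcases hcov y with hy | hy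
    · exact h1 y hy
    · refine (continuousAt_const (y := (0:ℝ))).congr ?_
      filter_upwards [hNo.mem_nhds hy] with z hz
      exact (h2 z hz).symm
  have hpsiO : ∀ y ∈ O, psi lam R0 L R =ᶠ[𝓝 y] fun y => T1.T (lam y - L) - T1.T (‖y‖ - R) := by
    intro y hy
    filter_upwards [hOo.mem_nhds hy] with z hz
    unfold psi
    rw [if_pos (show R0 < ‖z‖ from hz)]
  have hpsiS : ∀ y ∈ O, ContDiffAt ℝ ∞ (psi lam R0 L R) y := by
    intro y hy
    refine ContDiffAt.congr_of_eventuallyEq ?_ (hpsiO y hy)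
    have h1 : ContDiffAt ℝ ∞ (fun y => T1.T (lam y - L)) y :=
      T_smooth.contDiffAt.comp y ((h.sm y hy).sub contDiffAt_const)
    have h2 : ContDiffAt ℝ ∞ (fun y : E n => T1.T (‖y‖ - R)) y :=
      T_smooth.contDiffAt.comp y ((contDiffAt_norm ℝ (hne y hy)).sub contDiffAt_const)
    exact h1.sub h2
  have hpdpsi : ∀ y ∈ O, ∀ i, pd i (psi lam R0 L R) y =
      deriv T1.T (lam y - L) * pd i lam y - deriv T1.T (‖y‖ - R) * (y i / ‖y‖) := by
    intro y hy i
    rw [Vale.Agent.P366.pd_congr (hpsiO y hy) i]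
    have hld : DifferentiableAt ℝ lam y := (h.sm y hy).differentiableAt (by simp)
    have hnd : DifferentiableAt ℝ (fun y : E n => ‖y‖) y :=
      (contDiffAt_norm ℝ (hne y hy) (n := 1)).differentiableAt (by simp)
    have h1 : DifferentiableAt ℝ (fun y => T1.T (lam y - L)) y :=
      (T_diff _).comp y (hld.sub_const L)
    have h2 : DifferentiableAt ℝ (fun y : E n => T1.T (‖y‖ - R)) y :=
      (T_diff _).comp y (hnd.sub_const R)
    rw [Vale.Agent.P366.pd_sub h1 h2, pd_T hld, pd_T hnd, H353.N.pd_norm' (hne y hy)]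
  -- the compactly supported field
  have hZ : ∀ i, ContDiff ℝ 1 fun y => psi lam R0 L R y * F i y := by
    intro i
    rw [contDiff_iff_contDiffAt]
    intro y
    rcases hcov y with hy | hy
    · exact ((hpsiS y hy).of_le (by simp)).mul (hF i y hy)
    · refine (contDiffAt_const (c := (0:ℝ))).congr_of_eventuallyEq ?_
      filter_upwards [hNo.mem_nhds hy] with z hz
      rw [hpsiN z hz, zero_mul]
  have hZc : ∀ i, HasCompactSupport fun y => psi lam R0 L R y * F i y :=
    fun i => hcs _ fun x hx => by rw [hpsiR x hx, zero_mul]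
  have hFpd : ∀ i, ∀ y ∈ O, ContinuousAt (pd i (F i)) y := by
    intro i y hy
    have h1 : ContDiffAt ℝ 0 (fderiv ℝ (F i)) y := (hF i y hy).fderiv_right (by simp)
    exact (h1.clm_apply (contDiffAt_const (c := EuclideanSpace.single i (1:ℝ)))).continuousAt
  have hFc : ∀ i, ∀ y ∈ O, ContinuousAt (F i) y := fun i y hy => (hF i y hy).continuousAt
  have hlpd : ∀ i, ∀ y ∈ O, ContinuousAt (pd i lam) y := by
    intro i y hy
    have h1 : ContDiffAt ℝ 0 (fderiv ℝ lam) y := (h.sm y hy).fderiv_right (by simp)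
    exact (h1.clm_apply (contDiffAt_const (c := EuclideanSpace.single i (1:ℝ)))).continuousAt
  -- the three integrands
  set a : E n → ℝ := fun y => psi lam R0 L R y * ∑ i, pd i (F i) y with ha
  set b1 : E n → ℝ := O.indicator fun y => deriv T1.T (lam y - L) * ∑ i, pd i lam y * F i y with hb1
  set b2 : E n → ℝ := fun y => deriv T1.T (‖y‖ - R) * ∑ i, F i y * (y i / ‖y‖) with hb2
  have hindO : ∀ y ∈ O, ∀ g : E n → ℝ, O.indicator g =ᶠ[𝓝 y] g := by
    intro y hy g
    filter_upwards [hOo.mem_nhds hy] with z hz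
    exact indicator_of_mem hz _
  have hac : Continuous a := by
    refine hglue a (fun y hy => ?_) fun y hy => by simp only [ha, hpsiN y hy, zero_mul]
    exact (hpsiS y hy).continuousAt.mul (tendsto_finsetSum _ fun i _ => hFpd i y hy)
  have hai : Integrable a := hac.integrable_of_hasCompactSupport (hcs _ fun x hx => by
    simp only [ha, hpsiR x hx, zero_mul])
  have hb1c : Continuous b1 := by
    refine hglue b1 (fun y hy => ?_) fun y hy => ?_
    · refine ContinuousAt.congr ?_ (hindO y hy _).symm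
      refine (hT'c.continuousAt.comp ((hlc y hy).sub continuousAt_const)).mul ?_
      exact tendsto_finsetSum _ fun i _ => (hlpd i y hy).mul (hFc i y hy)
    · by_cases hyO : y ∈ O
      · simp only [hb1, indicator_of_mem hyO]
        rw [T_deriv_zero (hzL y hy hyO), zero_mul]
      · simp only [hb1, indicator_of_notMem hyO]
  have hb1i : Integrable b1 := hb1c.integrable_of_hasCompactSupport (hcs _ fun x hx => by
    have h2 : L + 1 + M < ‖x‖ := (le_max_right _ _).trans_lt hx
    have h3 : x ∈ O := show R0 < ‖x‖ by linarith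
    simp only [hb1, indicator_of_mem h3]
    have h4 := (abs_le.mp (hlm x h3)).1
    rw [T_deriv_one (by linarith), zero_mul])
  have hb2c : Continuous b2 := by
    refine hglue b2 (fun y hy => ?_) fun y hy => by
      simp only [hb2]; rw [T_deriv_zero (hzR y hy), zero_mul]
    refine (hT'c.continuousAt.comp (continuous_norm.continuousAt.sub continuousAt_const)).mul ?_
    refine tendsto_finsetSum _ fun i _ => (hFc i y hy).mul ?_
    exact ((EuclideanSpace.proj (𝕜 := ℝ) i : E n →L[ℝ] ℝ).continuous.continuousAt).div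
      continuous_norm.continuousAt (norm_ne_zero_iff.mpr (hne y hy))
  have hb2i : Integrable b2 := hb2c.integrable_of_hasCompactSupport (hcs _ fun x hx => by
    have h2 : R + 1 < ‖x‖ := (le_max_left _ _).trans_lt hx
    simp only [hb2]
    rw [T_deriv_one (by linarith), zero_mul])
  have hsum : ∀ y, a y + (b1 y - b2 y) = ∑ i, Stmt.pd i (fun y => psi lam R0 L R y * F i y) y := by
    intro y
    have e0 : ∀ i, Stmt.pd i (fun y => psi lam R0 L R y * F i y) y =
        pd i (fun y => psi lam R0 L R y * F i y) y := fun i =>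
      T1.pd_fderiv (((hZ i).differentiable (by simp)) y) i
    simp only [e0]
    rcases hcov y with hy | hy
    · have hpd : DifferentiableAt ℝ (psi lam R0 L R) y := (hpsiS y hy).differentiableAt (by simp)
      have e : ∀ i, pd i (fun y => psi lam R0 L R y * F i y) y =
          psi lam R0 L R y * pd i (F i) y + deriv T1.T (lam y - L) * (pd i lam y * F i y) -
          deriv T1.T (‖y‖ - R) * (F i y * (y i / ‖y‖)) := by
        intro i
        rw [Vale.Agent.P366.pd_mul hpd ((hF i y hy).differentiableAt (by simp)), hpdpsi y hy]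
        ring
      simp only [e, Finset.sum_add_distrib, Finset.sum_sub_distrib, ← Finset.mul_sum, ha, hb1, hb2,
        indicator_of_mem hy]
      ring
    · have e : ∀ i, pd i (fun y => psi lam R0 L R y * F i y) y = 0 := by
        intro i
        have h1 : (fun y => psi lam R0 L R y * F i y) =ᶠ[𝓝 y] fun _ => 0 := by
          filter_upwards [hNo.mem_nhds hy] with z hz
          rw [hpsiN z hz, zero_mul]
        rw [Vale.Agent.P366.pd_congr h1 i, Vale.Agent.P366.pd_const]
      have e1 : b1 y = 0 := by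
        by_cases hyO : y ∈ O
        · simp only [hb1, indicator_of_mem hyO]
          rw [T_deriv_zero (hzL y hy hyO), zero_mul]
        · simp only [hb1, indicator_of_notMem hyO]
      have e2 : b2 y = 0 := by simp only [hb2]; rw [T_deriv_zero (hzR y hy), zero_mul]
      have e3 : a y = 0 := by simp only [ha, hpsiN y hy, zero_mul]
      simp only [e, e1, e2, e3, Finset.sum_const_zero]
      ring
  have h0 : ∫ y, (a y + (b1 y - b2 y)) = 0 := by
    simp only [hsum]
    rw [integral_finsetSum]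
    · exact Finset.sum_eq_zero fun i _ => T1.integral_pd_eq_zero (hZ i) (hZc i) i
    · intro i _
      have h2 : Stmt.pd i (fun y => psi lam R0 L R y * F i y) =
          fun x => fderiv ℝ (fun y => psi lam R0 L R y * F i y) x (EuclideanSpace.single i 1) :=
        funext fun x => T1.pd_fderiv (((hZ i).differentiable (by simp)) x) i
      rw [h2]
      exact (((hZ i).continuous_fderiv (by simp)).clm_apply
        continuous_const).integrable_of_hasCompactSupport ((hZc i).fderiv_apply (𝕜 := ℝ) _)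
  have e1 : (∫ y, (a y + (b1 y - b2 y))) = (∫ y, a y) + (∫ y, (b1 y - b2 y)) :=
    integral_add hai (hb1i.sub hb2i)
  have e2 : (∫ y, (b1 y - b2 y)) = (∫ y, b1 y) - (∫ y, b2 y) := integral_sub hb1i hb2i
  rw [e1, e2] at h0
  refine ⟨hai, ?_⟩
  -- the flux through the spheres
  have hB2 : ∫ y, b2 y = ∫ r in Ioi (0:ℝ), deriv T1.T (r - R) * flux F r := by
    rw [polar b2 hb2i]
    refine setIntegral_congr_fun measurableSet_Ioi fun r hr => ?_
    have hr : 0 < r := hr
    unfold flux
    have e : sphI b2 r = deriv T1.T (r - R) * sphI (fun x => ∑ i, F i x * (x i / ‖x‖)) r := by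
      unfold sphI
      rw [← integral_const_mul]
      refine integral_congr_ae (Eventually.of_forall fun θ => ?_)
      simp only [hb2]
      rw [Vale.Agent.P366.norm_smul_sph hr.le θ]
    rw [e]; ring
  -- the flux through the level sets
  have hB1 : ∫ y, b1 y = ∫ s in Ioi (0:ℝ), deriv T1.T (s - L) *
      SI (fun x => dW H s x * ∑ i, F i (Psi H (s • x)) * x i) := by
    rw [cov_int h hb1i (fun y hy => by
      have : y ∉ O := fun hyO => hy (h.cov y hyO)
      simp only [hb1, indicator_of_notMem this])]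
    refine setIntegral_congr_fun measurableSet_Ioi fun s hs => ?_
    have hs : 0 < s := hs
    unfold SI
    rw [← integral_const_mul]
    refine integral_congr_ae (Eventually.of_forall fun θ => ?_)
    have hθ : ‖(θ : E n)‖ = 1 := norm_eq_of_mem_sphere θ
    have hθ0 := ne0 hθ
    have hn : ‖s • (θ : E n)‖ = s := by
      rw [norm_smul, hθ, Real.norm_eq_abs, abs_of_pos hs, mul_one]
    have hsθ : s • (θ : E n) ≠ 0 := smul_ne_zero hs.ne' hθ0
    simp only
    rcases le_or_gt s L with hsL | hsL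
    · rw [T_deriv_zero (show s - L ≤ 0 by linarith), zero_mul]
      by_cases hm : s • (θ : E n) ∈ Par U
      · rw [indicator_of_mem hm]
        by_cases hyO : Psi H (s • (θ : E n)) ∈ O
        · simp only [hb1, indicator_of_mem hyO]
          rw [h.eq _ hm, hn, T_deriv_zero (show s - L ≤ 0 by linarith), zero_mul, mul_zero]
        · simp only [hb1, indicator_of_notMem hyO, mul_zero]
      · rw [indicator_of_notMem hm]
    · have hm : s • (θ : E n) ∈ Par U := ⟨hsθ, by
        rw [hn]
        have := hB _ hsθ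
        linarith⟩
      have hyO : Psi H (s • (θ : E n)) ∈ O := by
        have h3 := hM1 _ hsθ
        have h4 := norm_sub_norm_le (s • (θ : E n)) (Psi H (s • (θ : E n)))
        rw [norm_sub_rev, hn] at h4
        show R0 < ‖Psi H (s • (θ : E n))‖
        linarith
      rw [indicator_of_mem hm]
      simp only [hb1, indicator_of_mem hyO]
      rw [h.eq _ hm, hn, inv_smul_smul₀ hs.ne']
      have e : ∑ i, pd i lam (Psi H (s • (θ : E n))) * F i (Psi H (s • (θ : E n))) =
          ∑ i, F i (Psi H (s • (θ : E n))) * (θ : E n) i := by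
        refine Finset.sum_congr rfl fun i _ => ?_
        rw [h.gr _ hm, hn]
        simp only [PiLp.smul_apply, smul_eq_mul]
        field_simp
      rw [e]; ring
  rw [← hB1, ← hB2]
  linarith

end Vale.Agent.P366.H707.N
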