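import Vale.Agent.P366.H707.N.Slice
import Vale.Agent.P366.H208.N.X3c
import Vale.Agent.P366.H208.N.ToDat
import Vale.Agent.P366.H381.NH0
import Vale.Agent.P366.H896.N.X5Defs

/-! The integral identity on the level sets of `λ`. -/

open MeasureTheory Metric Filter Topology Set
open scoped ContDiff ENNReal

noncomputable section
namespace Vale.Agent.P366.KSN

open Vale.Agent.P366 (pd E flux)
open Vale.Agent.P366.H353.N
open Vale.Agent.P366.Kerr (NullCone IsSlice Region Psi pt sp nul ksG indG indK DECat)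
open Vale.Agent.P366.H707.N (Par dW lflux av)

variable {n : ℕ} {C : NullCone n} {lam f : E n → ℝ} {V : E (n + 1) → ℝ} {D : Stmt.Exterior n}
  {x y z : E n} {s t R : ℝ}

/-- The data of the level set of height `s` of `λ`. -/
def lev (C : NullCone n) (s : ℝ) (hs : ∀ x : E n, x ≠ 0 → C.U x ≤ s) : Dat n where
  H := C.H
  U := fun _ => s
  smH := smH C
  smU := Sm.const s
  homH := homH C
  homU := Hom.const s
  pos := fun x hx v hv h0 => by
    have h := posC C hx v hv h0
    have h2 : C.U x * ∑ i, v i ^ 2 ≤ s * ∑ i, v i ^ 2 :=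
      mul_le_mul_of_nonneg_right (hs x (ne_zero_of_one hx))
        (Finset.sum_nonneg fun i _ => sq_nonneg _)
    linarith

/-- The point of the level set in the direction of `x`. -/
def Zs (H : E n → ℝ) (s : ℝ) (x : E n) : E n := WithLp.toLp 2 fun i => pd i H x + s * (x i / ‖x‖)

lemma Zs_one (H : E n → ℝ) (s : ℝ) (hx : ‖x‖ = 1) : Zs H s x = Y H x s := by
  ext i
  change pd i H x + s * (x i / ‖x‖) = pd i H x + s * x i
  rw [hx, div_one]

lemma sm_Zs (C : NullCone n) (s : ℝ) (i : Fin n) : Sm fun y => Zs C.H s y i :=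
  ((smH C).pd i).add ((Sm.const s).mul ((Sm.coord i).div Sm.norm fun _ hy =>
    norm_ne_zero_iff.mpr hy))

lemma Zs_smul (C : NullCone n) (s : ℝ) (hx : x ≠ 0) {r : ℝ} (hr : 0 < r) :
    Zs C.H s (r • x) = Zs C.H s x := by
  ext i
  have h1 := ((homH C).pd (smH C) i) x hx r hr
  change pd i C.H (r • x) + s * ((r • x) i / ‖r • x‖) = pd i C.H x + s * (x i / ‖x‖)
  rw [h1, norm_smul, Real.norm_eq_abs, abs_of_pos hr]
  have hn : ‖x‖ ≠ 0 := norm_ne_zero_iff.mpr hx
  simp only [sub_self, zpow_zero, one_mul, PiLp.smul_apply, smul_eq_mul]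
  field_simp

lemma Zs_cd (C : NullCone n) (s : ℝ) (hx : x ≠ 0) : ContDiffAt ℝ ∞ (Zs C.H s) x := by
  rw [contDiffAt_euclidean]
  exact fun i => sm_Zs C s i x hx

lemma pd_Zs (C : NullCone n) (s : ℝ) (hx : ‖x‖ = 1) (i j : Fin n) :
    pd j (fun y => Zs C.H s y i) x = Ws C.H s x j i := by
  have h0 := ne_zero_of_one hx
  have hnv : Sm fun y : E n => y i / ‖y‖ := (Sm.coord i).div Sm.norm fun _ hy =>
    norm_ne_zero_iff.mpr hy
  have e : (fun y => Zs C.H s y i) = fun y => pd i C.H y + s * (y i / ‖y‖) := rfl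
  rw [e, pd_add' ((smH C).pd i) ((Sm.const s).mul hnv) h0, pd_cmul' hnv s h0]
  have h1 := X3.pd_nv hx j i
  unfold X3.nv at h1
  rw [h1]
  rfl

/-- a function on the level set, homogeneous of degree zero -/
lemma sm_comp_Zs (C : NullCone n) {g : E n → ℝ}
    (hg : ∀ x : E n, ‖x‖ = 1 → ContDiffAt ℝ ∞ g (Y C.H x s)) : Sm fun y => g (Zs C.H s y) := by
  intro x hx
  have hn := norm_pos_iff.mpr hx
  have h1 : Zs C.H s x = Y C.H (‖x‖⁻¹ • x) s := by
    rw [← Zs_one C.H s (Vale.Agent.P366.H707.N.norm_unit hn), Zs_smul C s hx (inv_pos.mpr hn)]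
  have h2 : ContDiffAt ℝ ∞ g (Zs C.H s x) := by
    rw [h1]; exact hg _ (Vale.Agent.P366.H707.N.norm_unit hn)
  exact h2.comp x (Zs_cd C s hx)

lemma hom_comp_Zs (C : NullCone n) (g : E n → ℝ) : Hom 0 fun y => g (Zs C.H s y) := by
  intro x hx r hr
  simp only [Zs_smul C s hx hr, zpow_zero, one_mul]

lemma cont_comp_Y (C : NullCone n) {g : E n → ℝ}
    (hg : ∀ x : E n, ‖x‖ = 1 → ContDiffAt ℝ ∞ g (Y C.H x s)) :
    ContinuousOn (fun x => g (Y C.H x s)) (sphere 0 1) := by
  refine (sm_comp_Zs C hg).contOn.congr fun x hx => ?_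
  have hx1 : ‖x‖ = 1 := by simpa using hx
  change g (Y C.H x s) = g (Zs C.H s x)
  rw [Zs_one C.H s hx1]

lemma pd_comp_Zs (C : NullCone n) {g : E n → ℝ} (hx : ‖x‖ = 1)
    (hg : DifferentiableAt ℝ g (Y C.H x s)) (j : Fin n) :
    pd j (fun y => g (Zs C.H s y)) x = ∑ i, Ws C.H s x j i * pd i g (Y C.H x s) := by
  have hg' : HasFDerivAt g (fderiv ℝ g (Y C.H x s)) (Zs C.H s x) := by
    rw [Zs_one C.H s hx]; exact hg.hasFDerivAt
  have hZ : DifferentiableAt ℝ (Zs C.H s) x :=
    (Zs_cd C s (ne_zero_of_one hx)).differentiableAt (by simp)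
  have h := hg'.comp x hZ.hasFDerivAt
  unfold Vale.Agent.P366.pd
  rw [show (fun y => g (Zs C.H s y)) = g ∘ Zs C.H s from rfl, h.fderiv]
  rw [ContinuousLinearMap.comp_apply, Vale.Agent.P366.fderiv_eq_sum_pd]
  refine Finset.sum_congr rfl fun i _ => ?_
  have h2 : (fderiv ℝ (Zs C.H s) x (EuclideanSpace.single j 1)) i =
      pd j (fun y => Zs C.H s y i) x := by
    have h3 : HasFDerivAt (fun y => Zs C.H s y i)
        ((EuclideanSpace.proj (𝕜 := ℝ) i : E n →L[ℝ] ℝ).comp (fderiv ℝ (Zs C.H s) x)) x :=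
      (EuclideanSpace.proj (𝕜 := ℝ) i : E n →L[ℝ] ℝ).hasFDerivAt.comp x hZ.hasFDerivAt
    unfold Vale.Agent.P366.pd
    rw [h3.fderiv]
    rfl
  rw [h2, pd_Zs C s hx]
  rfl

/-- the divergence of the cofactor matrix for a constant time function -/
lemma div_lev (C : NullCone n) {s : ℝ} (hs : ∀ x : E n, x ≠ 0 → C.U x ≤ s) (hx : ‖x‖ = 1)
    (j : Fin n) : ∑ i, pd i (fun y => (lev C s hs).A y i j) x =
      - sg C.H s x * x j := by
  set L := lev C s hs with hL
  have hx0 := ne_zero_of_one hx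
  set w : Fin n → ℝ := fun j => ∑ i, pd i (fun y => L.A y i j) x with hw
  have hb : ∀ j, L.b x j = 0 := by
    intro j
    unfold Dat.b
    refine Finset.sum_eq_zero fun k _ => ?_
    have : pd k L.U x = 0 := by
      change pd k (fun _ : E n => s) x = 0
      unfold Vale.Agent.P366.pd
      simp
    rw [this]; ring
  have htan : ∀ v : Fin n → ℝ, ∑ i, x i * v i = 0 → ∑ j, w j * v j = 0 := by
    intro v hv
    have h := L.divA hx v hv
    simp only [hb, mul_zero, Finset.sum_const_zero, sub_self, zero_mul] at h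
    exact h
  have hnor : ∑ j, w j * x j = - sg C.H s x := by
    have h1 : ∀ i, ∑ j, pd i (fun y => L.A y i j) x * x j = - L.A x i i := by
      intro i
      have h2 : pd i (fun y => ∑ j, L.A y i j * y j) x = 0 := by
        rw [pd_congr' (h := fun y => ∑ j, L.A y i j * y j) (f := fun _ => (0:ℝ))
          (fun y hy => L.A_x hy i) hx0 i, Vale.Agent.P366.pd_const]
      rw [pd_sum' Finset.univ (fun j => (L.smA i j).mul (Sm.coord j)) hx0] at h2
      have h3 : ∀ j, pd i (fun y => L.A y i j * y j) x =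
          L.A x i j * kd i j + pd i (fun y => L.A y i j) x * x j := by
        intro j
        rw [pd_mul' (L.smA i j) (Sm.coord j) hx0, pd_coord']
      simp only [h3, Finset.sum_add_distrib] at h2
      have h4 : ∑ j, L.A x i j * kd i j = L.A x i i := by simp [kd]
      rw [h4] at h2
      linarith
    have h5 : ∑ j, w j * x j = ∑ i, ∑ j, pd i (fun y => L.A y i j) x * x j := by
      simp only [hw, Finset.sum_mul]
      exact Finset.sum_comm
    rw [h5]
    simp only [h1, Finset.sum_neg_distrib]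
    have h6 := X3.tr_A L hx
    change ∑ i, L.A x i i = sg C.H s x at h6
    rw [h6]
  have hxx := sum_xx hx
  set τ := sg C.H s x with hτ
  have hv0 : ∑ j, x j * (w j + τ * x j) = 0 := by
    have e : ∀ j, x j * (w j + τ * x j) = w j * x j + τ * (x j * x j) := fun j => by ring
    simp only [e, Finset.sum_add_distrib, ← Finset.mul_sum, hnor, hxx]
    ring
  have h7 := htan _ hv0
  have h8 : ∑ j, (w j + τ * x j) ^ 2 = 0 := by
    have e : ∀ j, (w j + τ * x j) ^ 2 = w j * (w j + τ * x j) + τ * (x j * (w j + τ * x j)) :=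
      fun j => by ring
    simp only [e, Finset.sum_add_distrib, ← Finset.mul_sum, h7, hv0]
    ring
  have h9 := (Finset.sum_eq_zero_iff_of_nonneg fun i _ => sq_nonneg (w i + τ * x i)).mp h8 j
    (Finset.mem_univ j)
  have h10 : w j + τ * x j = 0 := by simpa using h9
  change w j = - τ * x j
  linarith

/-- The divergence theorem on the level set of height `s`. -/
theorem piola_level [Fact (3 ≤ n)] (C : NullCone n) {s : ℝ}
    (hs : ∀ x : E n, x ≠ 0 → C.U x ≤ s) {g : E n → ℝ}
    (hg : ∀ x : E n, ‖x‖ = 1 → ContDiffAt ℝ ∞ g (Y C.H x s)) (i : Fin n) :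
    SI (fun x => dts C.H s x * (pd i g (Y C.H x s) -
      (∑ k, x k * pd k g (Y C.H x s)) * x i)) =
    SI (fun x => g (Y C.H x s) * sg C.H s x * x i) := by
  set L := lev C s hs with hL
  have hsm := sm_comp_Zs C hg
  have hhom := hom_comp_Zs (s := s) C g
  have hF : ∀ j, Sm fun x => L.A x j i * g (Zs C.H s x) := fun j => (L.smA j i).mul hsm
  have hF0 : ∀ j, Hom 0 fun x => L.A x j i * g (Zs C.H s x) := fun j =>
    (((L.homA j i).mul hhom).cast (by norm_num))
  have h := SI_div hF hF0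
  have h0 : SI (fun x => ∑ j, L.A x j i * g (Zs C.H s x) * x j) = 0 := by
    have e : ∀ x : E n, ‖x‖ = 1 → ∑ j, L.A x j i * g (Zs C.H s x) * x j = 0 := by
      intro x hx
      have h1 := L.A_x (ne_zero_of_one hx) i
      have e2 : ∀ j, L.A x j i * g (Zs C.H s x) * x j = g (Zs C.H s x) * (L.A x i j * x j) := by
        intro j
        rw [L.A_symm x j i]; ring
      simp only [e2, ← Finset.mul_sum, h1, mul_zero]
    rw [SI_congr e, SI_const, mul_zero]
  rw [h0, mul_zero] at h
  have hpt : ∀ x : E n, ‖x‖ = 1 → ∑ j, pd j (fun x => L.A x j i * g (Zs C.H s x)) x =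
      dts C.H s x * (pd i g (Y C.H x s) - (∑ k, x k * pd k g (Y C.H x s)) * x i) -
      g (Y C.H x s) * sg C.H s x * x i := by
    intro x hx
    have hx0 := ne_zero_of_one hx
    have hgd : DifferentiableAt ℝ g (Y C.H x s) := (hg x hx).differentiableAt (by simp)
    have e : ∀ j, pd j (fun x => L.A x j i * g (Zs C.H s x)) x =
        L.A x i j * (∑ k, Ws C.H s x j k * pd k g (Y C.H x s)) +
        pd j (fun y => L.A y j i) x * g (Y C.H x s) := by
      intro j
      rw [pd_mul' (L.smA j i) hsm hx0, pd_comp_Zs C hx hgd, Zs_one C.H s hx, L.A_symm x j i]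
    simp only [e, Finset.sum_add_distrib, ← Finset.sum_mul]
    rw [div_lev C hs hx i]
    have e2 : ∑ j, L.A x i j * (∑ k, Ws C.H s x j k * pd k g (Y C.H x s)) =
        dts C.H s x * (pd i g (Y C.H x s) - (∑ k, x k * pd k g (Y C.H x s)) * x i) := by
      have e3 : ∀ j, L.A x i j * (∑ k, Ws C.H s x j k * pd k g (Y C.H x s)) =
          ∑ k, L.A x i j * Ws C.H s x j k * pd k g (Y C.H x s) := by
        intro j
        rw [Finset.mul_sum]
        exact Finset.sum_congr rfl fun k _ => by ring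
      simp only [e3]
      rw [Finset.sum_comm]
      simp only [← Finset.sum_mul]
      have e4 : ∀ k, ∑ j, L.A x i j * Ws C.H s x j k = dts C.H s x * pr x i k := by
        intro k
        have h5 := X3.AW L hx i k
        have h6 : L.dt x = dts C.H s x := X3.dt_one L hx
        rw [h6] at h5
        exact h5
      simp only [e4]
      have e5 : ∀ k, dts C.H s x * pr x i k * pd k g (Y C.H x s) =
          dts C.H s x * (kd i k * pd k g (Y C.H x s)) -
          dts C.H s x * ((x k * pd k g (Y C.H x s)) * x i) := by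
        intro k
        unfold pr
        ring
      simp only [e5, Finset.sum_sub_distrib, ← Finset.mul_sum, ← Finset.sum_mul, sum_kd_mul]
      ring
    rw [e2]
    ring
  rw [SI_congr hpt] at h
  have hc : ∀ k : Fin n, ContinuousOn (fun x : E n => x k) (sphere 0 1) := fun k =>
    (EuclideanSpace.proj (𝕜 := ℝ) k : E n →L[ℝ] ℝ).continuous.continuousOn
  have hpc : ∀ k, ContinuousOn (fun x => pd k g (Y C.H x s)) (sphere 0 1) := fun k =>
    cont_comp_Y C fun x hx => pd_contDiffAt (hg x hx) k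
  have hint1 : ContinuousOn (fun x => dts C.H s x * (pd i g (Y C.H x s) -
      (∑ k, x k * pd k g (Y C.H x s)) * x i) ) (sphere 0 1) :=
    (dts_cont C (Sm.const s)).mul ((hpc i).sub
      ((continuousOn_finsetSum _ fun k _ => (hc k).mul (hpc k)).mul (hc i)))
  have hint2 : ContinuousOn (fun x => g (Y C.H x s) * sg C.H s x * x i) (sphere 0 1) :=
    ((cont_comp_Y C hg).mul (sg_cont C (Sm.const s))).mul (hc i)
  rw [SI_sub hint1 hint2] at h
  linarith

end Vale.Agent.P366.KSN
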