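import Vale.Agent.P366.H707.N.X6b
import Vale.Agent.P366.H707.N.Cut
import Vale.Agent.P366.H208.N.X3b

/-! The rays starting at the surface: coordinates on the exterior. -/

open MeasureTheory Metric Filter Topology Set
open scoped ContDiff ENNReal

noncomputable section
namespace Vale.Agent.P366.KSN

open Vale.Agent.P366 (pd E flux sphI sphM polar fderiv_eq_sum_pd)
open Vale.Agent.P366.H353.N
open Vale.Agent.P366.Kerr (NullCone IsSlice Region Psi pt sp nul ksG indG indK DECat)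
open Vale.Agent.P366.H707.N (det_scale WW WW_x dW det_fderiv ne0 norm_unit)

variable {n : ℕ} {C : NullCone n} {x y z : E n} {s c : ℝ}

/-- The point of the ray in the direction `z / |z|` at the distance `|z|` from the surface. -/
def Rz (C : NullCone n) (z : E n) : E n :=
  WithLp.toLp 2 fun i => pd i C.H z + C.U z * X3.nv i z + z i

lemma Rz_Y (hx : ‖x‖ = 1) (hc : 0 < c) : Rz C (c • x) = Y C.H x (C.U x + c) := by
  have hx0 := ne_zero_of_one hx
  ext i
  change pd i C.H (c • x) + C.U (c • x) * X3.nv i (c • x) + (c • x) i =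
    pd i C.H x + (C.U x + c) * x i
  rw [((homH C).pd (smH C) i) x hx0 c hc, U_smul C hx0 hc, X3.hom_nv i x hx0 c hc]
  unfold X3.nv
  rw [hx]
  simp
  ring

lemma sm_Rz (C : NullCone n) (i : Fin n) : Sm fun z => Rz C z i :=
  (((smH C).pd i).add ((smU C).mul (X3.sm_nv i))).add (Sm.coord i)

lemma Rz_cd (C : NullCone n) (hz : z ≠ 0) : ContDiffAt ℝ ∞ (Rz C) z := by
  rw [contDiffAt_euclidean]
  exact fun i => sm_Rz C i z hz

lemma Rz_diff (C : NullCone n) (hz : z ≠ 0) : DifferentiableAt ℝ (Rz C) z :=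
  (Rz_cd C hz).differentiableAt (by simp)

lemma x_pdU (C : NullCone n) (hx : x ≠ 0) : ∑ j, x j * pd j C.U x = 0 := by
  have h := (homU C).euler (smU C) hx
  rw [h]; norm_num

lemma pd_Rz (C : NullCone n) (hx : ‖x‖ = 1) (hc : 0 < c) (i j : Fin n) :
    pd j (fun z => Rz C z i) (c • x) =
      c⁻¹ * (WW C.H (C.U x + c) x i j + c * (x i * x j) + x i * pd j C.U x) := by
  have hx0 := ne_zero_of_one hx
  have hcx : c • x ≠ 0 := smul_ne_zero hc.ne' hx0
  have hG : Sm fun z => pd i C.H z + C.U z * X3.nv i z :=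
    ((smH C).pd i).add ((smU C).mul (X3.sm_nv i))
  have hG0 : Hom 0 fun z => pd i C.H z + C.U z * X3.nv i z := by
    intro z hz r hr
    have h1 := ((homH C).pd (smH C) i) z hz r hr
    have h2 := (homU C) z hz r hr
    have h3 := X3.hom_nv i z hz r hr
    simp only [sub_self, zpow_zero, one_mul] at h1 h2 h3 ⊢
    rw [h1, h2, h3]
  have e : (fun z => Rz C z i) = fun z => (pd i C.H z + C.U z * X3.nv i z) + z i := rfl
  rw [e, pd_add' hG (Sm.coord i) hcx, pd_coord', (hG0.pd hG j) x hx0 c hc,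
    pd_add' ((smH C).pd i) ((smU C).mul (X3.sm_nv i)) hx0,
    pd_mul' (smU C) (X3.sm_nv i) hx0, X3.pd_nv hx j i]
  rw [show pd j (pd i C.H) x = hs C.H j i x from rfl, H353.N.hs_symm (smH C) hx0 j i]
  rw [show ((0:ℤ) - 1) = -1 by norm_num, zpow_neg_one]
  unfold WW pr X3.nv
  rw [hx]
  have h3 : kd j i = kd i j := by unfold kd; simp only [eq_comm]
  rw [h3]
  field_simp
  ring

/-- `det ((W + c x xᵀ) + x uᵀ) = det (W + c x xᵀ)` if `u` is orthogonal to `x`. -/
lemma det_add_row {x u : Fin n → ℝ} {M : Matrix (Fin n) (Fin n) ℝ} {c : ℝ} (hc : c ≠ 0)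
    (hM : ∀ i, ∑ j, M i j * x j = c * x i) (hu : ∑ j, u j * x j = 0) :
    Matrix.det (Matrix.of fun i j => M i j + x i * u j) = M.det := by
  have h1 : (Matrix.of fun i j => M i j + x i * u j : Matrix (Fin n) (Fin n) ℝ) =
      M * (1 + Matrix.replicateCol Unit (c⁻¹ • x) * Matrix.replicateRow Unit u) := by
    ext i j
    rw [Matrix.mul_add, Matrix.mul_one, Matrix.add_apply, ← Matrix.mul_assoc, Matrix.mul_apply]
    simp only [Matrix.of_apply, Finset.univ_unique, Finset.sum_singleton, Matrix.mul_apply,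
      Matrix.replicateCol_apply, Matrix.replicateRow_apply, Pi.smul_apply, smul_eq_mul]
    have e : ∀ k, M i k * (c⁻¹ * x k) = c⁻¹ * (M i k * x k) := fun k => by ring
    simp only [e, ← Finset.mul_sum, hM]
    rw [inv_mul_cancel_left₀ hc]
  rw [h1, Matrix.det_mul]
  have h2 : (1 + Matrix.replicateCol Unit (c⁻¹ • x) * Matrix.replicateRow Unit u).det = 1 := by
    rw [Matrix.det_one_add_mul_comm, Matrix.det_unique]
    simp only [Matrix.add_apply, Matrix.one_apply_eq, Matrix.mul_apply, Matrix.replicateRow_apply,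
      Matrix.replicateCol_apply, Pi.smul_apply, smul_eq_mul]
    have e : ∀ k, u k * (c⁻¹ * x k) = c⁻¹ * (u k * x k) := fun k => by ring
    simp only [e, ← Finset.mul_sum, hu]
    ring
  rw [h2, mul_one]

lemma det_Rz (C : NullCone n) (hx : ‖x‖ = 1) (hc : 0 < c) :
    (fderiv ℝ (Rz C) (c • x)).det = dts C.H (C.U x + c) x / c ^ (n - 1) := by
  have hx0 := ne_zero_of_one hx
  have hcx : c • x ≠ 0 := smul_ne_zero hc.ne' hx0
  have hn : 0 < n := by
    rcases Nat.eq_zero_or_pos n with h | h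
    · subst h
      exact absurd (Subsingleton.elim x 0) hx0
    · exact h
  rw [det_fderiv (F := fun i z => Rz C z i) (fun _ _ => rfl) (Rz_diff C hcx)]
  set M0 : Matrix (Fin n) (Fin n) ℝ :=
    Matrix.of fun i j => WW C.H (C.U x + c) x i j + c * (x i * x j) with hM0
  have e2 : (Matrix.of fun i j => pd j (fun z => Rz C z i) (c • x)) =
      c⁻¹ • (Matrix.of fun i j => M0 i j + x i * pd j C.U x) := by
    ext i j
    rw [Matrix.of_apply, pd_Rz C hx hc, Matrix.smul_apply, Matrix.of_apply, smul_eq_mul]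
    rfl
  have h4 : ∑ i, x i * x i = 1 := sum_xx hx
  have hW : ∀ i, ∑ j, WW C.H (C.U x + c) x i j * x j = 0 := fun i =>
    WW_x (smH C) (homH C) hx _ i
  have hMx : ∀ i, ∑ j, M0 i j * x j = c * x i := by
    intro i
    have e : ∀ j, M0 i j * x j = WW C.H (C.U x + c) x i j * x j + c * x i * (x j * x j) := by
      intro j
      rw [hM0, Matrix.of_apply]; ring
    simp only [e, Finset.sum_add_distrib, ← Finset.mul_sum, h4, hW]
    ring
  have hu : ∑ j, pd j C.U x * x j = 0 := by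
    rw [← x_pdU C hx0]
    exact Finset.sum_congr rfl fun j _ => mul_comm _ _
  rw [e2, Matrix.det_smul, Fintype.card_fin, det_add_row hc.ne' hMx hu, hM0,
    det_scale h4 hW]
  have e3 : dtan x (WW C.H (C.U x + c) x) = dts C.H (C.U x + c) x := rfl
  rw [e3]
  obtain ⟨m, rfl⟩ : ∃ m, n = m + 1 := ⟨n - 1, by omega⟩
  rw [Nat.add_sub_cancel, pow_succ, inv_pow]
  have hrm : c ^ m ≠ 0 := pow_ne_zero _ hc.ne'
  field_simp

lemma det_Rz_pos (C : NullCone n) (hz : z ≠ 0) : 0 < (fderiv ℝ (Rz C) z).det := by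
  obtain ⟨x, hx, hzx⟩ := exists_unit hz
  have hn : 0 < ‖z‖ := norm_pos_iff.2 hz
  rw [hzx, det_Rz C hx hn]
  have := dts_pos C (s := C.U x + ‖z‖) hx (by linarith)
  positivity

lemma Rz_inj (C : NullCone n) : InjOn (Rz C) {z | z ≠ 0} := by
  intro z hz z' hz' h
  obtain ⟨x, hx, hzx⟩ := exists_unit hz
  obtain ⟨x', hx', hzx'⟩ := exists_unit hz'
  have hn : 0 < ‖z‖ := norm_pos_iff.2 hz
  have hn' : 0 < ‖z'‖ := norm_pos_iff.2 hz'
  rw [hzx, hzx', Rz_Y hx hn, Rz_Y hx' hn'] at h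
  obtain ⟨h1, h2⟩ := Y_inj C hx (by linarith) hx' (by linarith) h
  subst h1
  have : ‖z‖ = ‖z'‖ := by linarith
  rw [hzx, hzx', this]

/-- The interior of the exterior domain. -/
def OO (C : NullCone n) : Set (E n) := Rz C '' {z | z ≠ 0}

lemma mem_OO : y ∈ OO C ↔ ∃ x s, ‖x‖ = 1 ∧ C.U x < s ∧ Y C.H x s = y := by
  constructor
  · rintro ⟨z, hz, rfl⟩
    obtain ⟨x, hx, hzx⟩ := exists_unit hz
    have hn : 0 < ‖z‖ := norm_pos_iff.2 hz
    refine ⟨x, C.U x + ‖z‖, hx, by linarith, ?_⟩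
    rw [← Rz_Y hx hn, ← hzx]
  · rintro ⟨x, s, hx, hs, rfl⟩
    have h : 0 < s - C.U x := by linarith
    refine ⟨(s - C.U x) • x, smul_ne_zero h.ne' (ne_zero_of_one hx), ?_⟩
    rw [Rz_Y hx h]
    congr 1
    ring

/-- The inverse of `Rz`. -/
def Rinv (C : NullCone n) (y : E n) : E n := Function.invFunOn (Rz C) {z | z ≠ 0} y

lemma Rinv_Rz (hz : z ≠ 0) : Rinv C (Rz C z) = z :=
  (Rz_inj C).leftInvOn_invFunOn hz

lemma Rz_local (C : NullCone n) (hz : z ≠ 0) : ∃ g : E n → E n, ContDiffAt ℝ ∞ g (Rz C z) ∧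
    g (Rz C z) = z ∧ ∀ᶠ y in 𝓝 (Rz C z), Rz C (g y) = y := by
  have hf := Rz_cd C hz
  have hd : (fderiv ℝ (Rz C) z).det ≠ 0 := (det_Rz_pos C hz).ne'
  set f' : E n ≃L[ℝ] E n := (fderiv ℝ (Rz C) z).toContinuousLinearEquivOfDetNeZero hd with hf'
  have hfd : HasFDerivAt (Rz C) (f' : E n →L[ℝ] E n) z := by
    rw [hf', ContinuousLinearMap.coe_toContinuousLinearEquivOfDetNeZero]
    exact (Rz_diff C hz).hasFDerivAt
  have hn : (∞ : WithTop ℕ∞) ≠ 0 := by simp
  exact ⟨hf.localInverse hfd hn, hf.to_localInverse hfd hn, hf.localInverse_apply_image hfd hn,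
    (hf.hasStrictFDerivAt' hfd hn).eventually_right_inverse⟩

lemma Rinv_ev (C : NullCone n) (hz : z ≠ 0) : ∃ g : E n → E n, ContDiffAt ℝ ∞ g (Rz C z) ∧
    g (Rz C z) = z ∧ Rinv C =ᶠ[𝓝 (Rz C z)] g ∧ ∀ᶠ y in 𝓝 (Rz C z), y ∈ OO C := by
  obtain ⟨g, hg, hgz, hgr⟩ := Rz_local C hz
  have hne : ∀ᶠ y in 𝓝 (Rz C z), g y ≠ 0 := by
    have h1 := hg.continuousAt
    have h2 : {w : E n | w ≠ 0} ∈ 𝓝 (g (Rz C z)) := by
      rw [hgz]; exact isOpen_ne.mem_nhds hz
    exact h1 h2
  refine ⟨g, hg, hgz, ?_, ?_⟩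
  · filter_upwards [hgr, hne] with y hy hy0
    conv_lhs => rw [← hy]
    exact Rinv_Rz hy0
  · filter_upwards [hgr, hne] with y hy hy0
    exact ⟨g y, hy0, hy⟩

lemma isOpen_OO (C : NullCone n) : IsOpen (OO C) := by
  rw [isOpen_iff_mem_nhds]
  rintro y ⟨z, hz, rfl⟩
  obtain ⟨g, -, -, -, h⟩ := Rinv_ev C hz
  exact h

lemma Rinv_cd (C : NullCone n) (hz : z ≠ 0) : ContDiffAt ℝ ∞ (Rinv C) (Rz C z) := by
  obtain ⟨g, hg, -, h, -⟩ := Rinv_ev C hz
  exact hg.congr_of_eventuallyEq h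

/-- The distance from the surface along the rays. -/
def rr (C : NullCone n) (y : E n) : ℝ := ‖Rinv C y‖

lemma rr_Rz (hz : z ≠ 0) : rr C (Rz C z) = ‖z‖ := by
  unfold rr
  rw [Rinv_Rz hz]

lemma rr_cd (C : NullCone n) (hz : z ≠ 0) : ContDiffAt ℝ ∞ (rr C) (Rz C z) := by
  have h : ContDiffAt ℝ ∞ (fun w : E n => ‖w‖) (Rinv C (Rz C z)) := by
    rw [Rinv_Rz hz]
    exact contDiffAt_norm ℝ hz
  exact h.comp (Rz C z) (Rinv_cd C hz)

lemma rr_Y (hx : ‖x‖ = 1) (hs : C.U x < s) : rr C (Y C.H x s) = s - C.U x := by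
  have h : 0 < s - C.U x := by linarith
  have e : Y C.H x s = Rz C ((s - C.U x) • x) := by
    rw [Rz_Y hx h]; congr 1; ring
  rw [e, rr_Rz (smul_ne_zero h.ne' (ne_zero_of_one hx)), norm_smul_unit hx h.le]

lemma Y_Rz (hx : ‖x‖ = 1) (hs : C.U x < s) :
    (s - C.U x) • x ≠ 0 ∧ Rz C ((s - C.U x) • x) = Y C.H x s := by
  have h : 0 < s - C.U x := by linarith
  refine ⟨smul_ne_zero h.ne' (ne_zero_of_one hx), ?_⟩
  rw [Rz_Y hx h]; congr 1; ring

/-- the gradient of the distance along the rays -/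
theorem pd_rr (C : NullCone n) (hx : ‖x‖ = 1) (hs : C.U x < s) (k : Fin n) :
    dts C.H s x * pd k (rr C) (Y C.H x s) =
      dts C.H s x * x k - ∑ j, (Ms C.H s x).adjugate k j * pd j C.U x := by
  have hx0 := ne_zero_of_one hx
  have hc : 0 < s - C.U x := by linarith
  set c := s - C.U x with hcdef
  obtain ⟨hz, hzY⟩ := Y_Rz (C := C) hx hs
  rw [← hcdef] at hz hzY
  set g : Fin n → ℝ := fun i => pd i (rr C) (Y C.H x s) with hg
  have hrd : DifferentiableAt ℝ (rr C) (Rz C (c • x)) := (rr_cd C hz).differentiableAt (by simp)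
  -- the chain rule
  have hch : ∀ j, ∑ i, g i * pd j (fun z => Rz C z i) (c • x) = x j := by
    intro j
    have h1 : (fun z => rr C (Rz C z)) =ᶠ[𝓝 (c • x)] fun z => ‖z‖ := by
      filter_upwards [isOpen_ne.mem_nhds hz] with w hw
      exact rr_Rz hw
    have h2 := Vale.Agent.P366.pd_congr h1 j
    rw [H353.N.pd_norm' hz] at h2
    have h3 : pd j (fun z => rr C (Rz C z)) (c • x) =
        ∑ i, pd i (rr C) (Rz C (c • x)) * pd j (fun z => Rz C z i) (c • x) := by
      have h := hrd.hasFDerivAt.comp (c • x) (Rz_diff C hz).hasFDerivAt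
      unfold Vale.Agent.P366.pd
      rw [show (fun z => rr C (Rz C z)) = rr C ∘ Rz C from rfl, h.fderiv]
      rw [ContinuousLinearMap.comp_apply, fderiv_eq_sum_pd]
      refine Finset.sum_congr rfl fun i _ => ?_
      have h4 : HasFDerivAt (fun z => Rz C z i)
          ((EuclideanSpace.proj (𝕜 := ℝ) i : E n →L[ℝ] ℝ).comp (fderiv ℝ (Rz C) (c • x)))
          (c • x) :=
        (EuclideanSpace.proj (𝕜 := ℝ) i : E n →L[ℝ] ℝ).hasFDerivAt.comp _
          (Rz_diff C hz).hasFDerivAt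
      rw [h4.fderiv]
      change (fderiv ℝ (Rz C) (c • x) (EuclideanSpace.single j 1)) i * _ =
        _ * (fderiv ℝ (Rz C) (c • x) (EuclideanSpace.single j 1)) i
      unfold Vale.Agent.P366.pd
      ring
    rw [h3, hzY] at h2
    have h5 : (c • x) j / ‖c • x‖ = x j := by
      rw [norm_smul_unit hx hc.le]
      simp only [PiLp.smul_apply, smul_eq_mul]
      field_simp
    rw [h5] at h2
    exact h2
  have hsU : C.U x + c = s := by rw [hcdef]; ring
  have hxx := sum_xx hx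
  set σ := ∑ i, g i * x i with hσ
  have hj : ∀ j, ∑ i, g i * WW C.H s x i j + c * σ * x j + σ * pd j C.U x = c * x j := by
    intro j
    have h := hch j
    have e : ∀ i, g i * pd j (fun z => Rz C z i) (c • x) =
        c⁻¹ * (g i * WW C.H s x i j) + (g i * x i) * x j + c⁻¹ * ((g i * x i) * pd j C.U x) := by
      intro i
      rw [pd_Rz C hx hc, hsU]
      field_simp
    simp only [e, Finset.sum_add_distrib, ← Finset.mul_sum, ← Finset.sum_mul] at h
    rw [← hσ] at h
    field_simp at h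
    linarith
  have hWx : ∀ i, ∑ j, WW C.H s x i j * x j = 0 := fun i => WW_x (smH C) (homH C) hx _ i
  have hσ1 : σ = 1 := by
    have h1 : ∑ j, (∑ i, g i * WW C.H s x i j + c * σ * x j + σ * pd j C.U x) * x j =
        ∑ j, c * x j * x j := Finset.sum_congr rfl fun j _ => by rw [hj j]
    have e1 : ∀ j, (∑ i, g i * WW C.H s x i j + c * σ * x j + σ * pd j C.U x) * x j =
        (∑ i, g i * (WW C.H s x i j * x j)) + c * σ * (x j * x j) +
          σ * (x j * pd j C.U x) := by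
      intro j
      rw [add_mul, add_mul, Finset.sum_mul]
      have : ∀ i, g i * WW C.H s x i j * x j = g i * (WW C.H s x i j * x j) := fun i => by ring
      simp only [this]
      ring
    have e2 : ∑ j, ∑ i, g i * (WW C.H s x i j * x j) = 0 := by
      rw [Finset.sum_comm]
      simp only [← Finset.mul_sum, hWx, mul_zero, Finset.sum_const_zero]
    have e3 : ∀ j, c * x j * x j = c * (x j * x j) := fun j => by ring
    simp only [e1, e3, Finset.sum_add_distrib, ← Finset.mul_sum, hxx, x_pdU C hx0] at h1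
    rw [e2] at h1
    have h2 : c * σ = c := by linarith
    exact mul_left_cancel₀ hc.ne' (by linarith)
  -- the matrix equation
  have hM : ∀ j, ∑ i, Ms C.H s x j i * g i = x j - pd j C.U x := by
    intro j
    have h := hj j
    rw [hσ1] at h
    have e : ∀ i, Ms C.H s x j i * g i = g i * WW C.H s x i j + x j * (g i * x i) := by
      intro i
      have h1 : Ms C.H s x j i = WW C.H s x j i + x j * x i := rfl
      rw [h1, H707.N.WW_symm (smH C) hx0 s j i]
      ring
    simp only [e, Finset.sum_add_distrib, ← Finset.mul_sum]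
    rw [← hσ, hσ1]
    linarith
  have hadj : ∀ i, ∑ j, (Ms C.H s x).adjugate k j * Ms C.H s x j i =
      dts C.H s x * (1 : Matrix (Fin n) (Fin n) ℝ) k i := by
    intro i
    have h := congrFun (congrFun (Matrix.adjugate_mul (Ms C.H s x)) k) i
    rw [Matrix.mul_apply] at h
    rw [h]
    rfl
  have h6 : ∑ j, (Ms C.H s x).adjugate k j * (x j - pd j C.U x) = dts C.H s x * g k := by
    have e1 : ∀ j, (Ms C.H s x).adjugate k j * (x j - pd j C.U x) =
        ∑ i, ((Ms C.H s x).adjugate k j * Ms C.H s x j i) * g i := by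
      intro j
      rw [← hM j, Finset.mul_sum]
      exact Finset.sum_congr rfl fun i _ => by ring
    simp only [e1]
    rw [Finset.sum_comm]
    simp only [← Finset.sum_mul, hadj]
    simp [Matrix.one_apply]
  have h7 : ∑ j, (Ms C.H s x).adjugate k j * x j = dts C.H s x * x k := by
    have e2 : ∑ j, (Ms C.H s x).adjugate k j * x j =
        ∑ j, ∑ i, ((Ms C.H s x).adjugate k j * Ms C.H s x j i) * x i := by
      refine Finset.sum_congr rfl fun j _ => ?_
      conv_lhs => rw [← Ms_mul_x (s := s) C hx j]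
      rw [Finset.mul_sum]
      exact Finset.sum_congr rfl fun i _ => by ring
    rw [e2, Finset.sum_comm]
    simp only [← Finset.sum_mul, hadj]
    simp [Matrix.one_apply]
  rw [← h6]
  simp only [mul_sub, Finset.sum_sub_distrib, h7]

end Vale.Agent.P366.KSN
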