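import Vale.Agent.P366.H707.N.X6b
import Vale.Agent.P366.H707.N.Avg

/-! The far region of a Kerr-Schild exterior. -/

open MeasureTheory Metric Filter Topology Set
open scoped ContDiff ENNReal

noncomputable section
namespace Vale.Agent.P366.KSN

open Vale.Agent.P366 (pd E flux)
open Vale.Agent.P366.H353.N
open Vale.Agent.P366.Kerr (NullCone IsSlice Region Psi pt sp nul ksG indG indK DECat)
open Vale.Agent.P366.H707.N (Par dW lflux av)

variable {n : ℕ} {C : NullCone n} {lam f : E n → ℝ} {V : E (n + 1) → ℝ} {D : Stmt.Exterior n}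
  {x y z : E n} {s t R : ℝ}

/-- The far region in the sense of `H707.N.Far`. -/
theorem far_of (hS : IsSlice C lam V f D) (hR : 0 ≤ R) (hF : ∀ y, R < ‖y‖ → 0 ≤ D.F y) :
    Vale.Agent.P366.H707.N.Far C.H C.U lam R where
  smH := smH C
  h1 := homH C
  smU := smU C
  h0 := homU C
  inj := fun a ha b hb hab => by
    rw [Psi_eq C ha.1, Psi_eq C hb.1] at hab
    exact C.inj ha hb hab
  cov := fun y hy => by
    obtain ⟨x, hx0, hx1, rfl⟩ := (hS.dom y).mp (hF y hy)
    exact ⟨x, ⟨hx0, hx1⟩, Psi_eq C hx0⟩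
  eq := fun x hx => by
    rw [Psi_eq C hx.1]
    exact hS.eqL x hx.1 hx.2
  sm := fun y hy => hS.smL y (hF y hy)
  gr := fun x hx i => by
    rw [Psi_eq C hx.1]
    exact pd_lam_Psi hS hx.1 hx.2 i
  nn := hR
  det := fun z hz => by
    have hn : 0 < ‖z‖ := norm_pos_iff.mpr hz.1
    have hx : ‖‖z‖⁻¹ • z‖ = 1 := Vale.Agent.P366.H707.N.norm_unit hn
    have hU : C.U (‖z‖⁻¹ • z) ≤ ‖z‖ := by
      rw [U_smul C hz.1 (inv_pos.mpr hn)]
      exact hz.2
    exact (dts_pos C hx hU).le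

theorem exists_far' (hS : IsSlice C lam V f D) :
    ∃ R, 0 ≤ R ∧ Vale.Agent.P366.H707.N.Far C.H C.U lam R := by
  obtain ⟨R, hR⟩ := D.dom.2.2.2
  exact ⟨max R 0, le_max_right _ _, far_of hS (le_max_right _ _) fun y hy =>
    (hR y ((le_max_left _ _).trans_lt hy)).le⟩

/-- The flux through the level sets on the rays. -/
theorem lflux_Y (C : NullCone n) (F : Fin n → E n → ℝ) (hs : 0 < s) :
    lflux C.H F s = SI (fun x => dts C.H s x * ∑ i, F i (Y C.H x s) * x i) := by
  unfold lflux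
  refine SI_congr fun x hx => ?_
  have h : Vale.Agent.P366.H707.N.Psi C.H (s • x) = Y C.H x s := by
    rw [Psi_eq C (smul_ne_zero hs.ne' (ne_zero_of_one hx)), Y_eq C hx hs]
  rw [h]
  rfl

end Vale.Agent.P366.KSN
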