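import Vale.Agent.P366.H707.N.Ray
import Vale.Agent.P366.H707.N.Asm

/-! The divergence theorem on the exterior of the surface. -/

open MeasureTheory Metric Filter Topology Set
open scoped ContDiff ENNReal

noncomputable section
namespace Vale.Agent.P366.KSN

open Vale.Agent.P366 (pd E flux sphI sphM polar fderiv_eq_sum_pd)
open Vale.Agent.P366.H353.N
open Vale.Agent.P366.Kerr (NullCone IsSlice Region Psi pt sp nul ksG indG indK DECat)
open Vale.Agent.P366.H707.N (ne0 norm_unit cutO cut_gen le_av av_le av_tendsto)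
open Vale.Agent.P366.T1 (T_deriv_nonneg T_deriv_zero T_deriv_one T_diff T_smooth)

variable {n : ℕ} {C : NullCone n} {x y z : E n} {s c : ℝ}

/-! ### bounds and closedness -/

lemma Rz_bound (C : NullCone n) : ∃ M : ℝ, 0 ≤ M ∧ ∀ z : E n, z ≠ 0 → ‖Rz C z - z‖ ≤ M := by
  have hc : ContinuousOn (fun x : E n => Rz C x - x) (sphere 0 1) := by
    intro x hx
    have hx0 : x ≠ 0 := ne0 (by simpa using hx)
    exact ((Rz_diff C hx0).continuousAt.sub continuousAt_id).continuousWithinAt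
  obtain ⟨M, hM⟩ := (isCompact_sphere (0 : E n) 1).exists_bound_of_continuousOn hc
  refine ⟨max M 0, le_max_right _ _, fun z hz => (le_trans ?_ (le_max_left _ _))⟩
  obtain ⟨x, hx, hzx⟩ := exists_unit hz
  have hn : 0 < ‖z‖ := norm_pos_iff.2 hz
  have h2 := hM x (by simpa using hx)
  have e : Rz C z - z = Rz C x - x := by
    have e1 : Rz C x = Y C.H x (C.U x + 1) := by
      have := Rz_Y (C := C) hx one_pos
      rwa [one_smul] at this
    rw [e1]
    conv_lhs => rw [hzx, Rz_Y hx hn]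
    ext i
    simp only [PiLp.sub_apply, Y_apply, PiLp.smul_apply, smul_eq_mul]
    ring
  rw [e]
  exact h2

lemma isClosed_Rz (C : NullCone n) {δ : ℝ} (hδ : 0 < δ) :
    IsClosed (Rz C '' {z | δ ≤ ‖z‖}) := by
  obtain ⟨M, hM0, hM⟩ := Rz_bound C
  apply IsSeqClosed.isClosed
  intro u y hu hy
  choose z hz hzu using hu
  have hz0 : ∀ k, z k ≠ 0 := fun k h => by
    have h1 : δ ≤ ‖z k‖ := hz k
    rw [h, norm_zero] at h1
    linarith
  obtain ⟨B, hB⟩ := (hy.norm).bddAbove_range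
  have hbd : ∀ k, z k ∈ closedBall (0 : E n) (B + M) ∩ {z | δ ≤ ‖z‖} := by
    intro k
    refine ⟨?_, hz k⟩
    have h1 := hM (z k) (hz0 k)
    have h2 : ‖u k‖ ≤ B := hB ⟨k, rfl⟩
    have h3 := norm_sub_norm_le (z k) (Rz C (z k))
    rw [norm_sub_rev, hzu k] at h3
    rw [hzu k] at h1
    simp only [mem_closedBall, dist_zero_right]
    linarith
  have hcomp : IsCompact (closedBall (0 : E n) (B + M) ∩ {z | δ ≤ ‖z‖}) :=
    (isCompact_closedBall _ _).inter_right (isClosed_le continuous_const continuous_norm)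
  obtain ⟨w, hw, φ, hφ, hlim⟩ := hcomp.tendsto_subseq hbd
  have hw0 : w ≠ 0 := fun h => by
    have h1 : δ ≤ ‖w‖ := hw.2
    rw [h, norm_zero] at h1
    linarith
  have h1 : Tendsto (fun k => Rz C (z (φ k))) atTop (𝓝 (Rz C w)) :=
    (Rz_diff C hw0).continuousAt.tendsto.comp hlim
  have h2 : Tendsto (fun k => u (φ k)) atTop (𝓝 y) := hy.comp hφ.tendsto_atTop
  have h3 : (fun k => Rz C (z (φ k))) = fun k => u (φ k) := funext fun k => hzu (φ k)
  rw [h3] at h1
  exact ⟨w, hw.2, tendsto_nhds_unique h1 h2⟩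

/-! ### change of variables -/

theorem cov_Rz [Fact (3 ≤ n)] (C : NullCone n) {k : E n → ℝ} (hk : Integrable k)
    (hk0 : ∀ y, y ∉ OO C → k y = 0) :
    ∫ y, k y = ∫ c in Ioi (0:ℝ), SI (fun x => dts C.H (C.U x + c) x *
      k (Y C.H x (C.U x + c))) := by
  have hPm : MeasurableSet {z : E n | z ≠ 0} := isOpen_ne.measurableSet
  have hfd : ∀ x ∈ {z : E n | z ≠ 0}, HasFDerivWithinAt (Rz C) (fderiv ℝ (Rz C) x)
      {z | z ≠ 0} x := fun x hx => (Rz_diff C hx).hasFDerivAt.hasFDerivWithinAt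
  have e1 : ∫ y, k y = ∫ y in Rz C '' {z | z ≠ 0}, k y :=
    (setIntegral_eq_integral_of_forall_compl_eq_zero fun y hy => hk0 y hy).symm
  have hi := (integrableOn_image_iff_integrableOn_abs_det_fderiv_smul volume hPm hfd
    (Rz_inj C) k).mp hk.integrableOn
  rw [e1, integral_image_eq_integral_abs_det_fderiv_smul volume hPm hfd (Rz_inj C),
    ← integral_indicator hPm]
  rw [polar _ ((integrable_indicator_iff hPm).mpr hi)]
  refine setIntegral_congr_fun measurableSet_Ioi fun s hs => ?_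
  have hs : 0 < s := hs
  unfold sphI SI
  rw [← integral_const_mul]
  refine integral_congr_ae (Eventually.of_forall fun θ => ?_)
  have hθ : ‖(θ : E n)‖ = 1 := norm_eq_of_mem_sphere θ
  simp only
  have hm : s • (θ : E n) ∈ {z : E n | z ≠ 0} := smul_ne_zero hs.ne' (ne0 hθ)
  have hd := dts_pos C (s := C.U (θ : E n) + s) hθ (by linarith)
  rw [indicator_of_mem hm, det_Rz C hθ hs, Rz_Y hθ hs, abs_of_pos (by positivity), smul_eq_mul]
  have : s ^ (n - 1) ≠ 0 := pow_ne_zero _ hs.ne'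
  field_simp

/-! ### continuity -/

lemma det_contOn {X : Type*} [TopologicalSpace X] {M : X → Matrix (Fin n) (Fin n) ℝ} {S : Set X}
    (h : ∀ i j, ContinuousOn (fun p => M p i j) S) : ContinuousOn (fun p => (M p).det) S := by
  simp only [Matrix.det_apply]
  refine continuousOn_finsetSum _ fun σ _ => ?_
  exact (continuousOn_finsetProd _ fun i _ => h (σ i) i).const_smul _

lemma adj_contOn {X : Type*} [TopologicalSpace X] {M : X → Matrix (Fin n) (Fin n) ℝ} {S : Set X}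
    (h : ∀ i j, ContinuousOn (fun p => M p i j) S) (i j : Fin n) :
    ContinuousOn (fun p => (M p).adjugate i j) S := by
  simp only [Matrix.adjugate_apply]
  refine det_contOn fun k l => ?_
  by_cases hk : k = j
  · subst hk
    simp only [Matrix.updateRow_self]
    exact continuousOn_const
  · simp only [Matrix.updateRow_ne hk]
    exact h k l

lemma Ms_joint (C : NullCone n) (T : Set ℝ) (i j : Fin n) :
    ContinuousOn (fun p : ℝ × E n => Ms C.H p.1 p.2 i j) (T ×ˢ sphere 0 1) := by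
  have e : ∀ p : ℝ × E n, Ms C.H p.1 p.2 i j =
      hs C.H i j p.2 + p.1 * (kd i j - p.2 i * p.2 j) + p.2 i * p.2 j := fun _ => rfl
  simp only [e]
  have h1 : ContinuousOn (fun p : ℝ × E n => hs C.H i j p.2) (T ×ˢ sphere 0 1) :=
    sm_joint (((smH C).pd j).pd i) T
  have hi := coord_joint (n := n) i (T ×ˢ sphere 0 1)
  have hj := coord_joint (n := n) j (T ×ˢ sphere 0 1)
  exact (h1.add (continuous_fst.continuousOn.mul (continuousOn_const.sub (hi.mul hj)))).add
    (hi.mul hj)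

/-- The flux of `Z` through the surface at the distance `c` along the rays. -/
def bflux (C : NullCone n) (Z : Fin n → E n → ℝ) (c : ℝ) (x : E n) : ℝ :=
  ∑ i, Z i (Y C.H x (C.U x + c)) * (dts C.H (C.U x + c) x * x i -
    ∑ j, (Ms C.H (C.U x + c) x).adjugate i j * pd j C.U x)

lemma bflux_cont (C : NullCone n) {Z : Fin n → E n → ℝ}
    (hZ : ∀ i x s, ‖x‖ = 1 → C.U x ≤ s → ContinuousAt (Z i) (Y C.H x s)) {T : Set ℝ}
    (hT : T ⊆ Ici 0) :
    ContinuousOn (fun p : ℝ × E n => bflux C Z p.1 p.2) (T ×ˢ sphere 0 1) := by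
  have hmap : ContinuousOn (fun p : ℝ × E n => (C.U p.2 + p.1, p.2)) (T ×ˢ sphere 0 1) :=
    ((sm_joint (smU C) T).add continuous_fst.continuousOn).prodMk continuous_snd.continuousOn
  have hmaps : MapsTo (fun p : ℝ × E n => (C.U p.2 + p.1, p.2)) (T ×ˢ sphere 0 1)
      ((univ : Set ℝ) ×ˢ sphere 0 1) := fun p hp => ⟨mem_univ _, hp.2⟩
  have hd : ContinuousOn (fun p : ℝ × E n => dts C.H (C.U p.2 + p.1) p.2) (T ×ˢ sphere 0 1) :=
    ContinuousOn.comp (g := fun p : ℝ × E n => dts C.H p.1 p.2)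
      (f := fun p : ℝ × E n => (C.U p.2 + p.1, p.2)) (dts_joint C univ) hmap hmaps
  have ha0 : ∀ i j, ContinuousOn (fun p : ℝ × E n => (Ms C.H p.1 p.2).adjugate i j)
      ((univ : Set ℝ) ×ˢ sphere 0 1) := fun i j =>
    adj_contOn (M := fun p : ℝ × E n => Ms C.H p.1 p.2) (fun i j => Ms_joint C univ i j) i j
  have ha : ∀ i j, ContinuousOn (fun p : ℝ × E n =>
      (Ms C.H (C.U p.2 + p.1) p.2).adjugate i j) (T ×ˢ sphere 0 1) := fun i j =>
    ContinuousOn.comp (g := fun p : ℝ × E n => (Ms C.H p.1 p.2).adjugate i j)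
      (f := fun p : ℝ × E n => (C.U p.2 + p.1, p.2)) (ha0 i j) hmap hmaps
  have hY : ContinuousOn (fun p : ℝ × E n => Y C.H p.2 (C.U p.2 + p.1)) (T ×ˢ sphere 0 1) :=
    ContinuousOn.comp (g := fun p : ℝ × E n => Y C.H p.2 p.1)
      (f := fun p : ℝ × E n => (C.U p.2 + p.1, p.2)) (Y_joint C univ) hmap hmaps
  have hZc : ∀ i, ContinuousOn (fun p : ℝ × E n => Z i (Y C.H p.2 (C.U p.2 + p.1)))
      (T ×ˢ sphere 0 1) := by
    intro i p hp
    have h0 : 0 ≤ p.1 := hT hp.1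
    have h1 := hZ i p.2 (C.U p.2 + p.1) (by simpa using hp.2) (by linarith)
    exact ContinuousAt.comp_continuousWithinAt (f := fun p : ℝ × E n =>
      Y C.H p.2 (C.U p.2 + p.1)) h1 (hY p hp)
  unfold bflux
  refine continuousOn_finsetSum _ fun i _ => (hZc i).mul ((hd.mul (coord_joint i _)).sub ?_)
  exact continuousOn_finsetSum _ fun j _ => (ha i j).mul (sm_joint ((smU C).pd j) T)

lemma SI_bflux_cont (C : NullCone n) {Z : Fin n → E n → ℝ}
    (hZ : ∀ i x s, ‖x‖ = 1 → C.U x ≤ s → ContinuousAt (Z i) (Y C.H x s)) {b : ℝ} :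
    ContinuousOn (fun c => SI (bflux C Z c)) (Icc 0 b) :=
  Vale.Agent.P366.H296.N.SI_continuousOn (bflux_cont C hZ fun _ h => h.1)

/-! ### the divergence theorem with cutoffs -/

/-- The cutoff function. -/
def cut (C : NullCone n) (δ R : ℝ) : E n → ℝ := cutO (OO C) (fun y => rr C y / δ - 1) R

theorem stokes_id [Fact (3 ≤ n)] (C : NullCone n) {R0 : ℝ}
    (hcov : ∀ y : E n, R0 < ‖y‖ → ∃ x s, ‖x‖ = 1 ∧ C.U x ≤ s ∧ Y C.H x s = y) :
    ∃ R1 : ℝ, ∀ Z : Fin n → E n → ℝ, (∀ i, ∀ y ∈ OO C, ContDiffAt ℝ 1 (Z i) y) →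
    ∀ δ, 0 < δ → δ ≤ 1 → ∀ R, R1 ≤ R →
      Integrable (fun y => cut C δ R y * ∑ i, pd i (Z i) y) ∧
      (∀ y, 0 ≤ cut C δ R y) ∧
      ∫ y, cut C δ R y * ∑ i, pd i (Z i) y =
        H707.N.av (flux Z) R - H707.N.av (fun r => SI (bflux C Z (δ * r))) 1 := by
  obtain ⟨M, hM0, hM⟩ := Rz_bound C
  have hfarY : ∀ y : E n, max R0 (M + 2) ≤ ‖y‖ → R0 < ‖y‖ →
      ∃ z : E n, ‖y‖ - M ≤ ‖z‖ ∧ z ≠ 0 ∧ Rz C z = y := by
    intro y hy hy0
    obtain ⟨x, s, hx, hs, rfl⟩ := hcov y hy0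
    have h1 : ‖Y C.H x s - (s - C.U x) • x‖ ≤ M := by
      have hx0 := ne_zero_of_one hx
      have h2 := hM x hx0
      have e1 : Rz C x = Y C.H x (C.U x + 1) := by
        have := Rz_Y (C := C) hx one_pos
        rwa [one_smul] at this
      have e : Y C.H x s - (s - C.U x) • x = Rz C x - x := by
        rw [e1]
        ext i
        simp only [PiLp.sub_apply, Y_apply, PiLp.smul_apply, smul_eq_mul]
        ring
      rw [e]; exact h2
    have h3 := norm_sub_norm_le (Y C.H x s) ((s - C.U x) • x)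
    rw [norm_smul_unit hx (by linarith)] at h3
    have h4 : M + 2 ≤ ‖Y C.H x s‖ := (le_max_right _ _).trans hy
    have hs' : C.U x < s := by linarith
    obtain ⟨hz, hzY⟩ := Y_Rz (C := C) hx hs'
    refine ⟨(s - C.U x) • x, ?_, hz, hzY⟩
    rw [norm_smul_unit hx (by linarith)]
    linarith
  refine ⟨max (max R0 (M + 2)) 1, fun Z hZ δ hδ hδ1 R hR => ?_⟩
  have hR1 : max R0 (M + 2) ≤ R := (le_max_left _ _).trans hR
  have hR0 : R0 ≤ R := (le_max_left _ _).trans hR1
  have hRM : M + 2 ≤ R := (le_max_right _ _).trans hR1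
  have hRpos : 0 < R := by linarith
  have hfar2 : ∀ y : E n, R < ‖y‖ → ∃ z : E n, 2 ≤ ‖z‖ ∧ z ≠ 0 ∧ Rz C z = y := by
    intro y hy
    obtain ⟨z, h1, h2, h3⟩ := hfarY y (hR1.trans hy.le) (hR0.trans_lt hy)
    exact ⟨z, by linarith, h2, h3⟩
  set N : Set (E n) := (Rz C '' {z | δ ≤ ‖z‖})ᶜ with hN
  have hNo : IsOpen N := (isClosed_Rz C hδ).isOpen_compl
  have hcovN : ∀ y, y ∈ OO C ∨ y ∈ N := by
    intro y
    by_cases hy : y ∈ Rz C '' {z | δ ≤ ‖z‖}
    · left
      obtain ⟨z, hz, rfl⟩ := hy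
      refine ⟨z, fun h => ?_, rfl⟩
      have h1 : δ ≤ ‖z‖ := hz
      rw [h, norm_zero] at h1
      linarith
    · exact Or.inr hy
  have hv : ∀ y ∈ OO C, ContDiffAt ℝ ∞ (fun y => rr C y / δ - 1) y := by
    rintro y ⟨z, hz, rfl⟩
    exact ((rr_cd C hz).div_const δ).sub contDiffAt_const
  have hzv : ∀ y ∈ N, y ∈ OO C → rr C y / δ - 1 ≤ 0 := by
    rintro y hy ⟨z, hz, rfl⟩
    have h1 : ¬ δ ≤ ‖z‖ := fun h => hy ⟨z, h, rfl⟩
    rw [rr_Rz hz]
    push Not at h1
    have : ‖z‖ / δ ≤ 1 := by rw [div_le_one hδ]; exact h1.le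
    linarith
  have hzR : ∀ y ∈ N, ‖y‖ ≤ R := by
    intro y hy
    by_contra hc
    push Not at hc
    obtain ⟨z, h1, h2, h3⟩ := hfar2 y hc
    exact hy ⟨z, by show δ ≤ ‖z‖; linarith, h3⟩
  have hfar : ∀ y, R + 1 < ‖y‖ → y ∈ OO C ∧ 1 ≤ rr C y / δ - 1 ∧ R + 1 ≤ ‖y‖ := by
    intro y hy
    obtain ⟨z, h1, h2, rfl⟩ := hfar2 y (by linarith)
    refine ⟨⟨z, h2, rfl⟩, ?_, hy.le⟩
    rw [rr_Rz h2]
    have : 2 ≤ ‖z‖ / δ := by
      rw [le_div_iff₀ hδ]; nlinarith
    linarith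
  obtain ⟨ha, hb, hc⟩ := cut_gen (isOpen_OO C) hNo hcovN hv hRpos hzv hzR hfar hZ
  refine ⟨ha, fun y => ?_, ?_⟩
  · unfold cut cutO
    split_ifs with hy
    · rcases le_or_gt ‖y‖ R with h1 | h1
      · rw [show T1.T (‖y‖ - R) = 0 from Real.smoothTransition.zero_of_nonpos (by linarith),
          sub_zero]
        exact Real.smoothTransition.nonneg _
      · obtain ⟨z, h2, h3, h4⟩ := hfar2 y h1
        have h5 : 2 ≤ rr C y / δ := by
          rw [← h4, rr_Rz h3, le_div_iff₀ hδ]; nlinarith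
        rw [show T1.T (rr C y / δ - 1) = 1 from
          Real.smoothTransition.one_of_one_le (by linarith)]
        have := Real.smoothTransition.le_one (‖y‖ - R)
        change 0 ≤ 1 - Real.smoothTransition (‖y‖ - R)
        linarith
    · exact le_rfl
  · unfold cut
    rw [hc]
    have e1 : (∫ r in Ioi (0:ℝ), deriv T1.T (r - R) * flux Z r) = H707.N.av (flux Z) R := rfl
    rw [e1]
    congr 1
    rw [cov_Rz C hb (fun y hy => indicator_of_notMem hy _)]
    -- the inner boundary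
    have e2 : ∀ c ∈ Ioi (0:ℝ), SI (fun x => dts C.H (C.U x + c) x *
        (OO C).indicator (fun y => deriv T1.T (rr C y / δ - 1) *
          ∑ i, pd i (fun y => rr C y / δ - 1) y * Z i y) (Y C.H x (C.U x + c))) =
        δ⁻¹ * (deriv T1.T (δ⁻¹ * c - 1) * SI (bflux C Z (δ * (δ⁻¹ * c)))) := by
      intro c hc
      have hc : 0 < c := hc
      rw [mul_inv_cancel_left₀ hδ.ne', ← SI_cmul, ← SI_cmul]
      refine SI_congr fun x hx => ?_
      have hU : C.U x < C.U x + c := by linarith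
      have hm : Y C.H x (C.U x + c) ∈ OO C := mem_OO.mpr ⟨x, _, hx, hU, rfl⟩
      rw [indicator_of_mem hm, rr_Y hx hU]
      have e3 : C.U x + c - C.U x = c := by ring
      rw [e3, div_eq_inv_mul]
      obtain ⟨hz, hzY⟩ := Y_Rz (C := C) hx hU
      have hrd : DifferentiableAt ℝ (rr C) (Y C.H x (C.U x + c)) := by
        rw [← hzY]
        exact (rr_cd C hz).differentiableAt (by simp)
      have e4 : ∀ i, pd i (fun y => rr C y / δ - 1) (Y C.H x (C.U x + c)) =
          δ⁻¹ * pd i (rr C) (Y C.H x (C.U x + c)) := by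
        intro i
        have h1 : HasFDerivAt (fun y => rr C y / δ - 1)
            (δ⁻¹ • fderiv ℝ (rr C) (Y C.H x (C.U x + c))) (Y C.H x (C.U x + c)) := by
          have h2 := (hrd.hasFDerivAt.const_mul δ⁻¹).sub_const 1
          have h3 : (fun y => δ⁻¹ * rr C y - 1) = fun y => rr C y / δ - 1 := by
            funext y; rw [div_eq_inv_mul]
          rwa [h3] at h2
        unfold Vale.Agent.P366.pd
        rw [h1.fderiv]
        simp
      simp only [e4]
      unfold bflux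
      have e5 : ∑ i, δ⁻¹ * pd i (rr C) (Y C.H x (C.U x + c)) * Z i (Y C.H x (C.U x + c)) =
          δ⁻¹ * ∑ i, pd i (rr C) (Y C.H x (C.U x + c)) * Z i (Y C.H x (C.U x + c)) := by
        rw [Finset.mul_sum]
        exact Finset.sum_congr rfl fun i _ => by ring
      have e6 : dts C.H (C.U x + c) x *
          ∑ i, pd i (rr C) (Y C.H x (C.U x + c)) * Z i (Y C.H x (C.U x + c)) =
          ∑ i, Z i (Y C.H x (C.U x + c)) * (dts C.H (C.U x + c) x * x i -
            ∑ j, (Ms C.H (C.U x + c) x).adjugate i j * pd j C.U x) := by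
        rw [Finset.mul_sum]
        refine Finset.sum_congr rfl fun i _ => ?_
        rw [← pd_rr C hx hU i]
        ring
      rw [e5, ← e6]
      ring
    rw [setIntegral_congr_fun measurableSet_Ioi e2, integral_const_mul]
    have e7 := integral_comp_mul_left_Ioi
      (fun r : ℝ => deriv T1.T (r - 1) * SI (bflux C Z (δ * r))) 0 (inv_pos.mpr hδ)
    rw [e7, mul_zero, inv_inv, smul_eq_mul, inv_mul_cancel_left₀ hδ.ne']
    rfl

/-- The divergence theorem: the flux at infinity is at least the flux through the surface. -/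
theorem stokes_le [Fact (3 ≤ n)] (C : NullCone n) {R0 : ℝ}
    (hcov : ∀ y : E n, R0 < ‖y‖ → ∃ x s, ‖x‖ = 1 ∧ C.U x ≤ s ∧ Y C.H x s = y)
    {Z : Fin n → E n → ℝ}
    (hZ : ∀ i x s, ‖x‖ = 1 → C.U x ≤ s → ContDiffAt ℝ 1 (Z i) (Y C.H x s))
    (hd : ∀ x s, ‖x‖ = 1 → C.U x < s → 0 ≤ ∑ i, pd i (Z i) (Y C.H x s)) {e : ℝ}
    (he : Tendsto (flux Z) atTop (𝓝 e)) : SI (bflux C Z 0) ≤ e := by
  obtain ⟨R1, hst⟩ := stokes_id C hcov
  have hZO : ∀ i, ∀ y ∈ OO C, ContDiffAt ℝ 1 (Z i) y := by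
    intro i y hy
    obtain ⟨x, s, hx, hs, rfl⟩ := mem_OO.mp hy
    exact hZ i x s hx hs.le
  have hZc : ∀ i x s, ‖x‖ = 1 → C.U x ≤ s → ContinuousAt (Z i) (Y C.H x s) :=
    fun i x s hx hs => (hZ i x s hx hs).continuousAt
  have hdO : ∀ δ R y, (∀ y, 0 ≤ cut C δ R y) → 0 ≤ cut C δ R y * ∑ i, pd i (Z i) y := by
    intro δ R y h
    by_cases hy : y ∈ OO C
    · obtain ⟨x, s, hx, hs, rfl⟩ := mem_OO.mp hy
      exact mul_nonneg (h _) (hd x s hx hs)
    · unfold cut cutO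
      rw [if_neg hy, zero_mul]
  -- the average at infinity
  have hav : Tendsto (H707.N.av (flux Z)) atTop (𝓝 e) := by
    refine av_tendsto (s0 := max R0 0 + 1) (fun c hc => ?_) he
    refine Vale.Agent.P366.H707.N.flux_integrable (le_max_right R0 0) (fun i y hy => ?_) hc
    obtain ⟨x, s, hx, hs, rfl⟩ := hcov y ((le_max_left _ _).trans_lt hy)
    exact hZ i x s hx hs
  have h1 : ∀ δ, 0 < δ → δ ≤ 1 → H707.N.av (fun r => SI (bflux C Z (δ * r))) 1 ≤ e := by
    intro δ hδ hδ1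
    refine ge_of_tendsto hav ?_
    filter_upwards [eventually_ge_atTop R1] with R hR
    obtain ⟨ha, hb, hc⟩ := hst Z hZO δ hδ hδ1 R hR
    have h2 : 0 ≤ ∫ y, cut C δ R y * ∑ i, pd i (Z i) y :=
      integral_nonneg fun y => hdO δ R y hb
    linarith
  -- the limit at the surface
  refine le_of_forall_sub_le fun ε hε => ?_
  have hcont := SI_bflux_cont C hZc (b := 2)
  have hc0 := hcont 0 ⟨le_rfl, by norm_num⟩
  have h3 := Metric.continuousWithinAt_iff.mp hc0 ε hε
  obtain ⟨η, hη, h4⟩ := h3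
  set δ := min (η / 4) 1 with hδ
  have hδ0 : 0 < δ := by rw [hδ]; positivity
  have hδ1 : δ ≤ 1 := min_le_right _ _
  have hδη : δ ≤ η / 4 := min_le_left _ _
  refine le_trans ?_ (h1 δ hδ0 hδ1)
  refine le_av (φ := fun r => SI (bflux C Z (δ * r))) zero_le_one ?_ fun r hr => ?_
  · have h5 : ContinuousOn (fun r : ℝ => SI (bflux C Z (δ * r))) (Icc 1 (1 + 1)) := by
      refine hcont.comp (continuous_const.mul continuous_id).continuousOn fun r hr => ?_
      have h6 : 0 ≤ r := by linarith [hr.1]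
      refine ⟨by positivity, ?_⟩
      have h7 : r ≤ 2 := by linarith [hr.2]
      show δ * r ≤ 2
      nlinarith
    exact h5.integrableOn_Icc
  · have h6 : 0 ≤ r := by linarith [hr.1]
    have h7 : r ≤ 2 := by linarith [hr.2]
    have h8 : 0 ≤ δ * r := by positivity
    have h9 : δ * r ≤ 2 * δ := by nlinarith
    have h10 := h4 (x := δ * r) ⟨h8, by linarith⟩ (by
      rw [Real.dist_eq, sub_zero, abs_of_nonneg h8]
      linarith)
    rw [Real.dist_eq] at h10
    have := (abs_lt.mp h10).1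
    linarith

end Vale.Agent.P366.KSN
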