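import Vale.Agent.P366.H707.N.Stokes

/-! The divergence theorem on the exterior of the surface: the case of equality. -/

open MeasureTheory Metric Filter Topology Set
open scoped ContDiff ENNReal

noncomputable section
namespace Vale.Agent.P366.KSN

open Vale.Agent.P366 (pd E flux sphI sphM polar fderiv_eq_sum_pd)
open Vale.Agent.P366.H353.N
open Vale.Agent.P366.Kerr (NullCone IsSlice Region Psi pt sp nul ksG indG indK DECat)
open Vale.Agent.P366.H707.N (ne0 norm_unit cutO cut_gen le_av av_le av_tendsto)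
open Vale.Agent.P366.T1 (T_deriv_nonneg T_deriv_zero T_deriv_one T_diff T_smooth)

variable {n : ℕ} {C : NullCone n} {x y z : E n} {s c : ℝ}

lemma bflux_lim (C : NullCone n) {Z : Fin n → E n → ℝ}
    (hZc : ∀ i x s, ‖x‖ = 1 → C.U x ≤ s → ContinuousAt (Z i) (Y C.H x s)) {e δ0 : ℝ}
    (hδ0 : 0 < δ0)
    (h1 : ∀ δ, 0 < δ → δ ≤ δ0 → H707.N.av (fun r => SI (bflux C Z (δ * r))) 1 ≤ e) :
    SI (bflux C Z 0) ≤ e := by
  refine le_of_forall_sub_le fun ε hε => ?_
  have hcont := SI_bflux_cont C hZc (b := 2)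
  have hc0 := hcont 0 ⟨le_rfl, by norm_num⟩
  have h3 := Metric.continuousWithinAt_iff.mp hc0 ε hε
  obtain ⟨η, hη, h4⟩ := h3
  set δ := min (min (η / 4) 1) δ0 with hδ
  have hδp : 0 < δ := by rw [hδ]; positivity
  have hδ1 : δ ≤ 1 := (min_le_left _ _).trans (min_le_right _ _)
  have hδη : δ ≤ η / 4 := (min_le_left _ _).trans (min_le_left _ _)
  refine le_trans ?_ (h1 δ hδp (min_le_right _ _))
  refine le_av (φ := fun r => SI (bflux C Z (δ * r))) zero_le_one ?_ fun r hr => ?_
  · have h5 : ContinuousOn (fun r : ℝ => SI (bflux C Z (δ * r))) (Icc 1 (1 + 1)) := by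
      refine hcont.comp (continuous_const.mul continuous_id).continuousOn fun r hr => ?_
      have h6 : 0 ≤ r := by linarith [hr.1]
      refine ⟨by positivity, ?_⟩
      have h7 : r ≤ 2 := by linarith [hr.2]
      show δ * r ≤ 2
      nlinarith
    exact h5.integrableOn_Icc
  · have h6 : 0 ≤ r := by linarith [hr.1]
    have h7 : r ≤ 2 := by linarith [hr.2]
    have h8 : 0 ≤ δ * r := by positivity
    have h9 : δ * r ≤ 2 * δ := by nlinarith
    have h10 := h4 (x := δ * r) ⟨h8, by linarith⟩ (by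
      rw [Real.dist_eq, sub_zero, abs_of_nonneg h8]
      linarith)
    rw [Real.dist_eq] at h10
    have := (abs_lt.mp h10).1
    linarith

/-- The case of equality in the divergence theorem: the divergence vanishes. -/
theorem stokes_eq [Fact (3 ≤ n)] (C : NullCone n) {R0 : ℝ}
    (hcov : ∀ y : E n, R0 < ‖y‖ → ∃ x s, ‖x‖ = 1 ∧ C.U x ≤ s ∧ Y C.H x s = y)
    {Z : Fin n → E n → ℝ}
    (hZ : ∀ i x s, ‖x‖ = 1 → C.U x ≤ s → ContDiffAt ℝ 1 (Z i) (Y C.H x s))
    (hd : ∀ x s, ‖x‖ = 1 → C.U x < s → 0 ≤ ∑ i, pd i (Z i) (Y C.H x s)) {e : ℝ}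
    (he : Tendsto (flux Z) atTop (𝓝 e)) (heq : e ≤ SI (bflux C Z 0)) :
    ∀ x s, ‖x‖ = 1 → C.U x < s → ∑ i, pd i (Z i) (Y C.H x s) = 0 := by
  obtain ⟨R1, hst⟩ := stokes_id C hcov
  have hZO : ∀ i, ∀ y ∈ OO C, ContDiffAt ℝ 1 (Z i) y := by
    intro i y hy
    obtain ⟨x, s, hx, hs, rfl⟩ := mem_OO.mp hy
    exact hZ i x s hx hs.le
  have hZc : ∀ i x s, ‖x‖ = 1 → C.U x ≤ s → ContinuousAt (Z i) (Y C.H x s) :=
    fun i x s hx hs => (hZ i x s hx hs).continuousAt
  have hdO : ∀ y ∈ OO C, 0 ≤ ∑ i, pd i (Z i) y := by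
    intro y hy
    obtain ⟨x, s, hx, hs, rfl⟩ := mem_OO.mp hy
    exact hd x s hx hs
  have hdc : ∀ y ∈ OO C, ContinuousAt (fun y => ∑ i, pd i (Z i) y) y := by
    intro y hy
    refine tendsto_finsetSum _ fun i _ => ?_
    have h1 : ContDiffAt ℝ 0 (fderiv ℝ (Z i)) y := (hZO i y hy).fderiv_right (by simp)
    exact (h1.clm_apply (contDiffAt_const (c := EuclideanSpace.single i (1:ℝ)))).continuousAt
  have hrc : ∀ y ∈ OO C, ContinuousAt (rr C) y := by
    rintro y ⟨z, hz, rfl⟩
    exact (rr_cd C hz).continuousAt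
  have hav : Tendsto (H707.N.av (flux Z)) atTop (𝓝 e) := by
    refine av_tendsto (s0 := max R0 0 + 1) (fun c hc => ?_) he
    refine Vale.Agent.P366.H707.N.flux_integrable (le_max_right R0 0) (fun i y hy => ?_) hc
    obtain ⟨x, s, hx, hs, rfl⟩ := hcov y ((le_max_left _ _).trans_lt hy)
    exact hZ i x s hx hs
  intro x0 s0 hx0 hs0
  by_contra hne
  set y0 := Y C.H x0 s0 with hy0
  have hy0O : y0 ∈ OO C := mem_OO.mpr ⟨x0, s0, hx0, hs0, rfl⟩
  have hκ : 0 < ∑ i, pd i (Z i) y0 := lt_of_le_of_ne (hd x0 s0 hx0 hs0) (Ne.symm hne)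
  set κ := ∑ i, pd i (Z i) y0 with hκdef
  have hr0 : 0 < rr C y0 := by rw [hy0, rr_Y hx0 hs0]; linarith
  have hev : ∀ᶠ y in 𝓝 y0, y ∈ OO C ∧ κ / 2 < ∑ i, pd i (Z i) y ∧ rr C y0 / 2 < rr C y := by
    have e1 : ∀ᶠ y in 𝓝 y0, y ∈ OO C := (isOpen_OO C).mem_nhds hy0O
    have e2 : ∀ᶠ y in 𝓝 y0, κ / 2 < ∑ i, pd i (Z i) y :=
      (hdc y0 hy0O).eventually_const_lt (by show κ / 2 < κ; linarith)
    have e3 : ∀ᶠ y in 𝓝 y0, rr C y0 / 2 < rr C y :=
      (hrc y0 hy0O).eventually_const_lt (by linarith)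
    exact e1.and (e2.and e3)
  obtain ⟨r, hr, hball⟩ := Metric.eventually_nhds_iff_ball.mp hev
  set c0 : ℝ := κ / 2 * (volume (ball y0 r)).toReal with hc0
  have hvol : 0 < (volume (ball y0 r)).toReal :=
    ENNReal.toReal_pos (measure_ball_pos volume y0 hr).ne' measure_ball_lt_top.ne
  have hc0p : 0 < c0 := by rw [hc0]; positivity
  set δ0 := min (rr C y0 / 4) 1 with hδ0
  have hδ0p : 0 < δ0 := by rw [hδ0]; positivity
  have h1 : ∀ δ, 0 < δ → δ ≤ δ0 →
      H707.N.av (fun r => SI (bflux C Z (δ * r))) 1 ≤ e - c0 := by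
    intro δ hδ hδ1
    have hδr : δ ≤ rr C y0 / 4 := hδ1.trans (min_le_left _ _)
    refine ge_of_tendsto (hav.sub_const c0) ?_
    filter_upwards [eventually_ge_atTop (max R1 (‖y0‖ + r))] with R hR
    obtain ⟨ha, hb, hc⟩ := hst Z hZO δ hδ (hδ1.trans (min_le_right _ _)) R
      ((le_max_left _ _).trans hR)
    have h2 : c0 ≤ ∫ y, cut C δ R y * ∑ i, pd i (Z i) y := by
      have e1 : c0 = ∫ y, (ball y0 r).indicator (fun _ => κ / 2) y := by
        rw [integral_indicator measurableSet_ball, setIntegral_const, hc0, smul_eq_mul, mul_comm]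
        rfl
      rw [e1]
      refine integral_mono ((integrable_indicator_iff measurableSet_ball).mpr
        (integrableOn_const (measure_ball_lt_top.ne))) ha fun y => ?_
      by_cases hy : y ∈ ball y0 r
      · rw [indicator_of_mem hy]
        obtain ⟨h3, h4, h5⟩ := hball y hy
        have h6 : cut C δ R y = 1 := by
          unfold cut cutO
          rw [if_pos h3]
          have h7 : 2 ≤ rr C y / δ := by
            rw [le_div_iff₀ hδ]; linarith
          have h8 : ‖y‖ ≤ R := by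
            have h9 : ‖y - y0‖ < r := by simpa [dist_eq_norm] using hy
            have h10 := norm_sub_norm_le y y0
            have h11 : ‖y0‖ + r ≤ R := (le_max_right _ _).trans hR
            linarith
          rw [show T1.T (rr C y / δ - 1) = 1 from
            Real.smoothTransition.one_of_one_le (by linarith),
            show T1.T (‖y‖ - R) = 0 from Real.smoothTransition.zero_of_nonpos (by linarith)]
          norm_num
        simp only [h6, one_mul]
        exact h4.le
      · rw [indicator_of_notMem hy]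
        by_cases hyO : y ∈ OO C
        · exact mul_nonneg (hb y) (hdO y hyO)
        · have h6 : cut C δ R y = 0 := by
            unfold cut cutO
            rw [if_neg hyO]
          simp only [h6, zero_mul]
          exact le_rfl
    show _ ≤ H707.N.av (flux Z) R - c0
    linarith
  have h2 := bflux_lim C hZc hδ0p h1
  linarith

end Vale.Agent.P366.KSN
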